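import Mathlib

/-!
P092, TEAM N, block N-RK (rank count, board #5439 (2)): statement.

Target: `Y d` (`1 ≤ d ≤ N`, `N = n - 1`) is the compact metric space of the `d`-dimensional
subspaces of `k^n`; `Y N` = hyperplanes; `I i j L L'` means `L ⊆ L'`.
Source: `S j` (`1 ≤ j ≤ N`) is the set of the `j`-dimensional subspaces, `R i j X X'` means
`X ⊆ X'`. `lam M`, `M : S N`, is the calculus of the source hyperplane `M` on the hyperplanes of
the target; `bet c`, `c : S 1`, the calculus of the source point `c` on the points of the target.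
`Γ` acts on the target, `H` on the source.
-/

set_option linter.all false

open scoped Topology
open ContinuousLinearMap

namespace Vale.Agent.P092.H618

/-- geometry of the target -/
structure TGeo (N : ℕ) (Y : ℕ → Type) [∀ d, MetricSpace (Y d)] [∀ d, CompactSpace (Y d)]
    (I : ∀ i j, Y i → Y j → Prop) : Prop where
  closed : ∀ i j, IsClosed {q : Y i × Y j | I i j q.1 q.2}
  refl : ∀ i (L L' : Y i), I i i L L' ↔ L = L'
  /-- if `L ⊄ L'`, then near `(L, L')` every hyperplane containing both contains a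
  `(j+1)`-dimensional space `s (L, L')`, continuous at `(L, L')` -/
  span : ∀ i j, 1 ≤ i → i ≤ j → j < N → ∀ (L : Y i) (L' : Y j), ¬ I i j L L' →
    ∃ s : Y i × Y j → Y (j + 1), ContinuousAt s (L, L') ∧
      ∀ᶠ q in 𝓝 (L, L'), ∀ M : Y N, I i N q.1 M → I j N q.2 M → I (j + 1) N (s q) M

/-- geometry of the source -/
structure SGeo (N : ℕ) (S : ℕ → Type) (R : ∀ i j, S i → S j → Prop) (H : Type) [Group H]
    [∀ j, MulAction H (S j)] : Prop where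
  refl : ∀ i (X X' : S i), R i i X X' ↔ X = X'
  trans : ∀ i j l X Y Z, R i j X Y → R j l Y Z → R i l X Z
  /-- every subspace contains a point and lies in a hyperplane -/
  pnt : ∀ j, 1 ≤ j → j ≤ N → ∀ X : S j, ∃ c : S 1, R 1 j c X
  hyp : ∀ j, 1 ≤ j → j ≤ N → ∀ X : S j, ∃ M : S N, R j N X M
  act : ∀ (g : H) i j X X', R i j X X' → R i j (g • X) (g • X')
  tra : ∀ j, 1 ≤ j → j ≤ N → ∀ X X' : S j, ∃ g : H, g • X = X'
  /-- `S j`, `j < N`, is connected by steps inside a common `(j+1)`-space -/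
  con : ∀ j, 1 ≤ j → j < N → ∀ X X' : S j,
    Relation.ReflTransGen (fun A B : S j => ∃ Z : S (j + 1), R j (j + 1) A Z ∧ R j (j + 1) B Z) X X'
  /-- `S (j+1)` is connected by steps with a common `j`-space -/
  con2 : ∀ j, 1 ≤ j → j < N → ∀ P P' : S (j + 1),
    Relation.ReflTransGen (fun A B : S (j + 1) => ∃ X : S j, R j (j + 1) X A ∧ R j (j + 1) X B) P P'
  /-- transitivity on the pairs of different `(j+1)`-spaces with a common `j`-space -/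
  tra2 : ∀ j, 1 ≤ j → j < N → ∀ P Y P' Y' : S (j + 1), P ≠ Y → P' ≠ Y' →
    (∃ X : S j, R j (j + 1) X P ∧ R j (j + 1) X Y) →
    (∃ X : S j, R j (j + 1) X P' ∧ R j (j + 1) X Y') → ∃ g : H, g • P = P' ∧ g • Y = Y'

section

variable {K : Type} [NormedAddCommGroup K] [InnerProductSpace ℂ K] [CompleteSpace K]

/-- non-incident supports -/
def Nin {A B : Type} [TopologicalSpace A] [TopologicalSpace B] (I : A → B → Prop)
    (u : C(A, ℂ)) (h : C(B, ℂ)) : Prop :=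
  ∀ x ∈ tsupport u, ∀ y ∈ tsupport h, ¬ I x y

/-- the word algebra of the source subspace `X`: generated by `lam M f`, `M ⊇ X` -/
noncomputable def WA {N : ℕ} {Y : ℕ → Type} [∀ d, MetricSpace (Y d)] {S : ℕ → Type}
    (R : ∀ i j, S i → S j → Prop) (lam : S N → (C(Y N, ℂ) →⋆ₐ[ℂ] (K →L[ℂ] K)))
    {j : ℕ} (X : S j) : StarSubalgebra ℂ (K →L[ℂ] K) :=
  StarAlgebra.adjoin ℂ {T | ∃ M f, R j N X M ∧ T = lam M f}

/-- all data of the rank count -/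
structure RkData (N : ℕ) {Y : ℕ → Type} [∀ d, MetricSpace (Y d)] [∀ d, CompactSpace (Y d)]
    (I : ∀ i j, Y i → Y j → Prop) {S : ℕ → Type} (R : ∀ i j, S i → S j → Prop)
    (Γ H : Type) [Group Γ] [Group H] [∀ d, MulAction Γ (Y d)]
    [∀ d, ContinuousConstSMul Γ (Y d)] [∀ j, MulAction H (S j)]
    (lamG : Γ →* (K →L[ℂ] K)) (π : H →* (K →L[ℂ] K)) (W : Set (K →L[ℂ] K))
    (lam : S N → (C(Y N, ℂ) →⋆ₐ[ℂ] (K →L[ℂ] K)))
    (bet : S 1 → (C(Y 1, ℂ) →⋆ₐ[ℂ] (K →L[ℂ] K))) : Prop where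
  hN : 1 ≤ N
  tgeo : TGeo N Y I
  sgeo : SGeo N S R H
  /-- `Γ` preserves incidence in the target -/
  gI : ∀ (γ : Γ) i j L L', I i j L L' → I i j (γ • L) (γ • L')
  uG : ∀ γ, adjoint (lamG γ) = lamG γ⁻¹
  uπ : ∀ g, adjoint (π g) = π g⁻¹
  sW : ∀ w ∈ W, adjoint w ∈ W
  /-- covariance -/
  covG : ∀ γ M f, lamG γ * lam M f * lamG γ⁻¹ =
    lam M (f.comp ⟨fun y => γ⁻¹ • y, continuous_const_smul γ⁻¹⟩)
  covπ : ∀ g M f, π g * lam M f * π g⁻¹ = lam (g • M) f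
  covW : ∀ w ∈ W, ∀ M f, w * lam M f = lam M f * w
  /-- zero-one law for the stabiliser of a subspace (Howe-Moore) -/
  zo : ∀ j, 1 ≤ j → j ≤ N → ∀ X : S j, ∀ P : K →L[ℂ] K, adjoint P = P → P * P = P →
    (∀ γ, P * lamG γ = lamG γ * P) → (∀ w ∈ W, P * w = w * P) →
    (∀ g : H, g • X = X → P * π g = π g * P) → P = 0 ∨ P = 1
  /-- the same for the stabiliser of two different `(j+1)`-spaces with a common `j`-space -/
  zo2 : ∀ j, 1 ≤ j → j < N → ∀ A B : S (j + 1), A ≠ B →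
    (∃ X : S j, R j (j + 1) X A ∧ R j (j + 1) X B) → ∀ P : K →L[ℂ] K, adjoint P = P →
    P * P = P → (∀ γ, P * lamG γ = lamG γ * P) → (∀ w ∈ W, P * w = w * P) →
    (∀ g : H, g • A = A → g • B = B → P * π g = π g * P) → P = 0 ∨ P = 1
  /-- no invariant calculus -/
  noinv : ∀ d, 1 ≤ d → d ≤ N → ∀ G : C(Y d, ℂ) →⋆ₐ[ℂ] (K →L[ℂ] K),
    (∀ g f, π g * G f = G f * π g) → (∀ w ∈ W, ∀ f, w * G f = G f * w) →
    (∀ γ f, lamG γ * G f * lamG γ⁻¹ =
      G (f.comp ⟨fun y => γ⁻¹ • y, continuous_const_smul γ⁻¹⟩)) → False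
  /-- (W0), the word lemma -/
  w0 : ∀ c : S 1, ∀ T ∈ WA (Y := Y) R lam c, ∀ M, R 1 N c M → ∀ u h, Nin (I 1 N) u h →
    bet c u * T * lam M h = 0

/-- the output of the rank count: calculi of all subspaces of the source -/
structure RkOut (N : ℕ) {Y : ℕ → Type} [∀ d, MetricSpace (Y d)] [∀ d, CompactSpace (Y d)]
    (I : ∀ i j, Y i → Y j → Prop) {S : ℕ → Type} (R : ∀ i j, S i → S j → Prop)
    (Γ H : Type) [Group Γ] [Group H] [∀ d, MulAction Γ (Y d)]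
    [∀ d, ContinuousConstSMul Γ (Y d)] [∀ j, MulAction H (S j)]
    (lamG : Γ →* (K →L[ℂ] K)) (π : H →* (K →L[ℂ] K)) (W : Set (K →L[ℂ] K))
    (lam : S N → (C(Y N, ℂ) →⋆ₐ[ℂ] (K →L[ℂ] K)))
    (bet : S 1 → (C(Y 1, ℂ) →⋆ₐ[ℂ] (K →L[ℂ] K)))
    (G : ∀ j, S j → (C(Y j, ℂ) →⋆ₐ[ℂ] (K →L[ℂ] K))) : Prop where
  top : ∀ M : S N, ∀ f, G N M f = lam M f
  pnt : ∀ c : S 1, ∀ f, G 1 c f = bet c f
  /-- central in the von Neumann algebra generated by the `lam M`, `M ⊇ X` -/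
  cen : ∀ j, 1 ≤ j → j ≤ N → ∀ X : S j, ∀ T : K →L[ℂ] K,
    (∀ M f, R j N X M → T * lam M f = lam M f * T) → ∀ f, T * G j X f = G j X f * T
  com : ∀ i j, 1 ≤ i → i ≤ j → j ≤ N → ∀ (X : S i) (X' : S j), R i j X X' → ∀ f f',
    Commute (G i X f) (G j X' f')
  inc : ∀ i j, 1 ≤ i → i ≤ j → j ≤ N → ∀ (X : S i) (X' : S j), R i j X X' → ∀ u h,
    Nin (I i j) u h → G i X u * G j X' h = 0
  covG : ∀ j, 1 ≤ j → j ≤ N → ∀ (X : S j) γ f, lamG γ * G j X f * lamG γ⁻¹ =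
    G j X (f.comp ⟨fun y => γ⁻¹ • y, continuous_const_smul γ⁻¹⟩)
  covπ : ∀ j, 1 ≤ j → j ≤ N → ∀ (X : S j) g f, π g * G j X f * π g⁻¹ = G j (g • X) f
  covW : ∀ j, 1 ≤ j → j ≤ N → ∀ (X : S j), ∀ w ∈ W, ∀ f, w * G j X f = G j X f * w
  /-- (AGR) for different spaces with a common subspace of codimension one -/
  agr : ∀ j, 1 ≤ j → j < N → ∀ A B : S (j + 1), A ≠ B →
    (∃ X : S j, R j (j + 1) X A ∧ R j (j + 1) X B) → ∀ ξ : K,
    (∀ f, G (j + 1) A f ξ = G (j + 1) B f ξ) → ξ = 0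

end

/-- **[N-RK]** -/
def RkStmt : Prop :=
  ∀ (K : Type) [NormedAddCommGroup K] [InnerProductSpace ℂ K] [CompleteSpace K] (N : ℕ)
    (Y : ℕ → Type) [∀ d, MetricSpace (Y d)] [∀ d, CompactSpace (Y d)]
    (I : ∀ i j, Y i → Y j → Prop) (S : ℕ → Type) (R : ∀ i j, S i → S j → Prop)
    (Γ H : Type) [Group Γ] [Group H] [∀ d, MulAction Γ (Y d)]
    [∀ d, ContinuousConstSMul Γ (Y d)] [∀ j, MulAction H (S j)]
    (lamG : Γ →* (K →L[ℂ] K)) (π : H →* (K →L[ℂ] K)) (W : Set (K →L[ℂ] K))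
    (lam : S N → (C(Y N, ℂ) →⋆ₐ[ℂ] (K →L[ℂ] K)))
    (bet : S 1 → (C(Y 1, ℂ) →⋆ₐ[ℂ] (K →L[ℂ] K))),
    (∀ j, S j → Nonempty (Y j)) → RkData N I R Γ H lamG π W lam bet →
    ∃ G : ∀ j, S j → (C(Y j, ℂ) →⋆ₐ[ℂ] (K →L[ℂ] K)), RkOut N I R Γ H lamG π W lam bet G

end Vale.Agent.P092.H618
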