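import Vale.Agent.P092.H618.HMK2
import Vale.Agent.P092.H218.NEndA

/-!
P092 (helper618), Team N, block [N-GAPB], (I4): `HMIA` of H218/NEndA from [HMK] and from test
functions which are finite linear combinations of coefficients of positive semidefinite kernels.
-/

set_option linter.all false

open scoped InnerProductSpace
open Filter Topology ContinuousLinearMap

namespace Vale.Agent.P092.H618.HMK

open Vale.Agent.P092.H859.CL (Fn Rep Slow Leg)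
open Vale.Agent.P092.H43 (Loc2)
open Vale.Agent.P092.RC (Pic Moore Cm)
open Vale.Agent.P092.H218.NR (Cut HMIA lm ul ul_eq cut_up)
open Vale.Agent.P092.H761 (Gaps big up)

/-- The source data without cut-offs. -/
structure Base {Γ D K S : Type} [Group Γ] [Group D] [TopologicalSpace D] [Group S]
    [TopologicalSpace S] [NormedAddCommGroup K] [InnerProductSpace ℂ K] [CompleteSpace K]
    (π : D →* (K →L[ℂ] K)) (lam : Γ →* (K →L[ℂ] K)) (W : Set (K →L[ℂ] K)) (Ω : K)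
    (mp : (Γ → ℝ) → (K →L[ℂ] K)) (Bd Bf : Set K) (θ : S →* D) (z : ℕ → D) (Nb : Set D) :
    Prop where
  pic : Pic π lam W Ω
  fn : Fn mp
  cov : ∀ γ (F : Γ → ℝ), (∀ g, |F g| ≤ 1) → lam γ * mp F * lam γ⁻¹ = mp (fun g => F (γ⁻¹ * g))
  Wm : ∀ w ∈ W, ∀ F : Γ → ℝ, (∀ g, |F g| ≤ 1) → w * mp F = mp F * w
  dense : Dense ((Submodule.span ℂ Bd : Submodule ℂ K) : Set K)
  norm : ∀ ξ ∈ Bd, ‖ξ‖ ≤ 1
  map : ∀ v, ∀ ξ ∈ Bd, π v ξ ∈ Bd
  slow : Slow mp (fun g => π g) Bd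
  loc : Loc2 mp (fun g => π g) Bd Bf
  cont : Continuous θ
  cz : ∀ N s, θ s * z N = z N * θ s
  con : ∀ n ∈ Nb, Tendsto (fun N => z N * n * (z N)⁻¹) atTop (𝓝 1)
  nrm : ∀ s, ∀ n ∈ Nb, θ s * n * (θ s)⁻¹ ∈ Nb

/-- Kernels with (RI) with respect to the gap `i₀`. -/
structure KerG {Γ J : Type} [Group Γ] (gap : J → Γ → ℝ) (i₀ : J) (ε : Γ → Γ → ℝ) : Prop where
  psd : Psd ε
  le : ∀ x, ε x x ≤ 1
  ri : ∀ f γ γ' : Γ, ∀ δ : ℝ, 0 < δ → ∃ T : ℝ, ∀ k, T ≤ gap i₀ k →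
      |ε (f⁻¹ * k⁻¹ * γ) (f⁻¹ * k⁻¹ * γ') - ε (k⁻¹ * γ) (k⁻¹ * γ')| ≤ δ

section hmi

variable {Γ D K S J : Type} [Group Γ] [Group D] [TopologicalSpace D] [Group S] [TopologicalSpace S]
  [NormedAddCommGroup K] [InnerProductSpace ℂ K] [CompleteSpace K] {π : D →* (K →L[ℂ] K)}
  {lam : Γ →* (K →L[ℂ] K)} {W : Set (K →L[ℂ] K)} {Ω : K} {mp : (Γ → ℝ) → (K →L[ℂ] K)}
  {Bd Bf : Set K} {θ : S →* D} {z : ℕ → D} {Nb : Set D} {U : Ultrafilter ℕ}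
  {χ : ℕ → Γ → ℝ} {ε : Γ → Γ → ℝ} [Fintype J] [DecidableEq J] {r : ℕ} {gap : J → Γ → ℝ}
  {cl : J → Fin r} {A : Finset (Fin r)} {i₀ : J} {mass : D → (Γ → ℝ) → ℝ}

theorem Base.inp (h : Base π lam W Ω mp Bd Bf θ z Nb) (hU : (U : Filter ℕ) ≤ atTop)
    (hC : Cut gap i₀ U χ) : Inp π lam W Ω mp Bd Bf θ z Nb U χ where
  pic := h.pic
  fn := h.fn
  cov := h.cov
  Wm := h.Wm
  dense := h.dense
  norm := h.norm
  map := h.map
  slow := h.slow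
  loc := h.loc
  cont := h.cont
  cz := h.cz
  con n hn := (h.con n hn).mono_left hU
  nrm := h.nrm
  χ01 := hC.mem
  χs s u δ hδ := hC.slow s u δ hδ

theorem KerG.ker (h : KerG gap i₀ ε) (hC : Cut gap i₀ U χ) : Ker U χ ε where
  psd := h.psd
  le := h.le
  ri f γ γ' δ hδ := by
    obtain ⟨T, hT⟩ := h.ri f γ γ' δ hδ
    filter_upwards [hC.large T] with N hN k hk
    exact hT k (hN k hk)

/-- Test functions which are finite linear combinations of coefficients of kernels. -/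
def Tests (gap : J → Γ → ℝ) (cl : J → Fin r) (A : Finset (Fin r)) (i₀ : J) : Prop :=
  ∀ ε : ℝ, 0 < ε → ∀ R0 : ℝ, ∃ (ι : Type) (I : Finset ι) (c : ι → ℝ) (κ : ι → Γ → Γ → ℝ)
    (F : Γ → ℝ), (∀ i, KerG gap i₀ (κ i)) ∧ (∀ k, F k = ∑ i ∈ I, c i * κ i k⁻¹ 1) ∧
    (∀ g, 0 ≤ F g ∧ F g ≤ 1) ∧
    (∃ T : ℝ, ∀ g, T ≤ gap i₀ g → ((∀ x ∈ A, x < cl i₀ → x ∉ big gap cl R0 g) ∨
      (∀ x ∈ A, cl i₀ < x → x ∉ big gap cl R0 g)) → 1 - ε ≤ F g) ∧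
    (∃ R1 : ℝ, ∀ g, (∀ x ∈ A, x ∈ big gap cl R1 g) → F g ≤ ε)

/-- **(I4)**, general form. -/
theorem Base.hmia [IsTopologicalGroup S] (h : Base π lam W Ω mp Bd Bf θ z Nb)
    (hS : H933.HoweMoore S) (hsc : Sc π lam W θ Nb) (hg : Gaps gap cl)
    (hmass : ∀ g (F : Γ → ℝ), (∀ x, |F x| ≤ 1) → mass g F = (⟪π g Ω, mp F (π g Ω)⟫_ℂ).re)
    (hT : Tests gap cl A i₀) : HMIA mass gap cl A i₀ z θ (cocompact S) := by
  intro U hU τ hτ0 hτ ε hε R0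
  obtain ⟨ι, I, c, κ, F, hκ, hF, hF01, hF1, hF2⟩ := hT ε hε R0
  have hC := cut_up hg i₀ (U := U) hτ0 (hτ.mono_left hU)
  obtain ⟨m, hm, a, ha⟩ := (h.inp hU hC).lim_sum hS hsc I c (fun i => (hκ i).ker hC) hF
  refine ⟨F, hF01, hF1, hF2, a, ha.congr fun s => ?_⟩
  refine (ul_eq ((hm s).congr fun N => ?_)).symm
  rw [hmass]
  intro x
  have h1 := hC.mem N x
  have h2 := hF01 x
  rw [abs_of_nonneg (mul_nonneg h1.1 h2.1)]
  exact mul_le_one₀ h1.2 h2.1 h2.2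

/-- **(I4)**, one simple factor. -/
theorem Base.hmia' [IsTopologicalGroup S] (h : Base π lam W Ω mp Bd Bf θ z Nb)
    (hS : H933.HoweMoore S) (hM : Moore Nb) (hg : Gaps gap cl)
    (hmass : ∀ g (F : Γ → ℝ), (∀ x, |F x| ≤ 1) → mass g F = (⟪π g Ω, mp F (π g Ω)⟫_ℂ).re)
    (hT : Tests gap cl A i₀) : HMIA mass gap cl A i₀ z θ (cocompact S) :=
  h.hmia hS (sc_of h.pic hM) hg hmass hT

end hmi

end Vale.Agent.P092.H618.HMK
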