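import Vale.Agent.P092.H618.HMI
import Vale.Agent.P092.H100.Ker4

/-!
P092 (helper618), Team N, block [N-GAPB], (I4): the test functions `Tests` from the two families of
kernels (`Sd` of H100/Ker4), with a set `A` of classes.
-/

set_option linter.all false

open Filter Topology

namespace Vale.Agent.P092.H618.HMK

open Vale.Agent.P092.H761 (Gaps big mem_big)
open Vale.Agent.P092.H100.Ker (PK Ad Sd UU)

variable {Γ J : Type} [Group Γ] [Fintype J] [DecidableEq J] {r : ℕ} {gap : J → Γ → ℝ} {cl : J → Fin r}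
  {A : Finset (Fin r)} {i₀ : J}

theorem psd_of_pk {X : Type} {K : X → X → ℝ} (h : PK K) : Psd K := ⟨h.symm, h.sum⟩

theorem kerG_of {e : Γ → Γ → ℝ} (h : Ad gap i₀ e) : KerG gap i₀ e where
  psd := psd_of_pk h.pk
  le := h.one
  ri := h.ri

/-- **The test functions.** `X`, `X'` = the gaps before and after `i₀`, inside the classes `A`. -/
theorem tests_of (hcl : Function.Injective cl) {X X' : Set J} {e e' : ℕ → Γ → Γ → ℝ}
    (hL : Sd gap i₀ X e) (hR : Sd gap i₀ X' e') (hX : X.Nonempty) (hX' : X'.Nonempty)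
    (hXA : ∀ x ∈ X, cl x ∈ A ∧ cl x < cl i₀) (hXA' : ∀ x ∈ X', cl x ∈ A ∧ cl i₀ < cl x) :
    Tests gap cl A i₀ := by
  have dec := Classical.decEq Γ
  intro ε hε R0
  obtain ⟨q1, hq1⟩ := hL.lo ε hε R0
  obtain ⟨q2, hq2⟩ := hR.lo ε hε R0
  obtain ⟨q, hq⟩ : ∃ q, q = max q1 q2 := ⟨_, rfl⟩
  obtain ⟨R1, hR1⟩ := hL.up (ε / 2) (half_pos hε) q
  obtain ⟨R2, hR2⟩ := hR.up (ε / 2) (half_pos hε) q
  obtain ⟨c, hc⟩ : ∃ c : Option (Fin (q + 1) × Fin (q + 1)) → ℝ, c = fun i => i.elim 1 fun p =>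
      -((-1) ^ (p.1 : ℕ) * (q.choose p.1 : ℝ) * ((-1) ^ (p.2 : ℕ) * (q.choose p.2 : ℝ))) :=
    ⟨_, rfl⟩
  obtain ⟨κ, hκ⟩ : ∃ κ : Option (Fin (q + 1) × Fin (q + 1)) → Γ → Γ → ℝ,
      κ = fun i => i.elim (fun _ _ => 1) fun p a b => e p.1 a b * e' p.2 a b := ⟨_, rfl⟩
  have key : ∀ g : Γ, (1 : ℝ) - UU e q g * UU e' q g =
      ∑ i ∈ (Finset.univ : Finset (Option (Fin (q + 1) × Fin (q + 1)))), c i * κ i g⁻¹ 1 := by
    intro g
    rw [Fintype.sum_option, Fintype.sum_prod_type]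
    have e0 : c none * κ none g⁻¹ 1 = 1 := by rw [hc, hκ]; simp
    rw [e0, UU, UU, Finset.sum_range, Finset.sum_range, Finset.sum_mul_sum, sub_eq_add_neg,
      ← Finset.sum_neg_distrib]
    congr 1
    refine Finset.sum_congr rfl fun a _ => ?_
    rw [← Finset.sum_neg_distrib]
    refine Finset.sum_congr rfl fun b _ => ?_
    rw [hc, hκ]
    simp only [Option.elim]
    ring
  refine ⟨_, Finset.univ, c, κ, fun g => 1 - UU e q g * UU e' q g, ?_, key, ?_, ?_, ?_⟩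
  · intro i
    rw [hκ]
    match i with
    | none => exact kerG_of (Ad.const gap i₀)
    | some p => exact kerG_of ((hL.ad _).mul (hR.ad _))
  · intro g
    have a0 := hL.u0 q g
    have a1 := hL.u1 q g
    have b0 := hR.u0 q g
    have b1 := hR.u1 q g
    constructor <;> nlinarith
  · refine ⟨(0 : ℝ), fun g _ hg => ?_⟩
    have a0 := hL.u0 q g
    have a1 := hL.u1 q g
    have b0 := hR.u0 q g
    have b1 := hR.u1 q g
    rcases hg with h | h
    · have h1 := hq1 q (hq ▸ le_max_left _ _) g fun x hx => by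
        by_contra hn
        exact h _ (hXA x hx).1 (hXA x hx).2 (mem_big.2 ⟨x, rfl, not_lt.1 hn⟩)
      change 1 - ε ≤ 1 - UU e q g * UU e' q g
      nlinarith
    · have h1 := hq2 q (hq ▸ le_max_right _ _) g fun x hx => by
        by_contra hn
        exact h _ (hXA' x hx).1 (hXA' x hx).2 (mem_big.2 ⟨x, rfl, not_lt.1 hn⟩)
      change 1 - ε ≤ 1 - UU e q g * UU e' q g
      nlinarith
  · refine ⟨(max R1 R2 : ℝ), fun g hg => ?_⟩
    obtain ⟨x, hx⟩ := hX
    obtain ⟨x', hx'⟩ := hX'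
    have h1 : max R1 R2 ≤ gap x g := by
      obtain ⟨j, hj, h⟩ := mem_big.1 (hg _ (hXA x hx).1)
      rwa [hcl hj] at h
    have h2 : max R1 R2 ≤ gap x' g := by
      obtain ⟨j, hj, h⟩ := mem_big.1 (hg _ (hXA' x' hx').1)
      rwa [hcl hj] at h
    have a := hR1 g ⟨x, hx, (le_max_left _ _).trans h1⟩
    have b := hR2 g ⟨x', hx', (le_max_right _ _).trans h2⟩
    have a1 := hL.u1 q g
    have b1 := hR.u1 q g
    have a0 := hL.u0 q g
    change 1 - UU e q g * UU e' q g ≤ ε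
    nlinarith

end Vale.Agent.P092.H618.HMK
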