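import Vale.Agent.P092.H618.BaseE
import Vale.Agent.P092.H618.TestK
import Vale.Agent.P092.H411.ChS
import Vale.Agent.P092.H515.ScF
import Vale.Agent.P092.H103.PicT
import Vale.Agent.P092.H100.Ker6
import Vale.Agent.P092.H307.Gb.Inst

/-!
P092 (helper618), Team N, block [N-GAPB], (U4): `HMIA` on the concrete picture over a lattice of any
group `E` with `ι : SL_(m+2)(k) → E`.
-/

set_option linter.all false

open scoped InnerProductSpace ENNReal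
open Filter Topology ContinuousLinearMap MeasureTheory TopologicalSpace

namespace Vale.Agent.P092.H618.Hmi

open Vale.Agent.P092.SR Vale.Agent.P092.H160
open Vale.Agent.P092.RC (KK pic lam₁ lam₂ XX Om Pic GG Moore)
open Vale.Agent.P092.H805.Row (mpE)
open Vale.Agent.P092.H618.HMK (Base Sc Tests tests_of)
open Vale.Agent.P092.H618.BaseE (baseE)
open Vale.Agent.P092.H411.Blk (blk continuous_blk)
open Vale.Agent.P092.H411.ChS (sg sg_cont)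
open Vale.Agent.P092.H218.NR (HMIA)
open Vale.Agent.P092.H761 (Gaps)
open Vale.Agent.P092.H534.GK (Crt)
open Vale.Agent.P092.H221.GapsC (lg)
open Vale.Agent.P092.H100.Ker (Mrp exists_sides Sd)
open Vale.Agent.P092.SN (PH bw)
open Vale.Agent.P092.H368.SN (Ctr)
open Vale.Agent.P092.H307.Gb (con_ctr nrm_ctr moore_ctr_sl moore_ctr_sl_inv bw_comm_blk)

section tests

variable {k : Type} [NontriviallyNormedField k] {N : ℕ} {Γ : Type} [Group Γ]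

theorem mrp_ph {q : Γ → GG k N} (hq : PH q) : Mrp fun g => (q g).1 where
  det g := by rw [(q g).2]; exact one_ne_zero
  mul g h := by
    obtain ⟨c, hc⟩ := hq g h
    refine ⟨c, fun h0 => ?_, hc⟩
    have h1 := (q (g * h)).2
    rw [hc, h0, zero_smul, Matrix.det_zero] at h1
    exact zero_ne_one h1

/-- **The test functions of a middle gap**, one factor. -/
theorem tests_crt [ProperSpace k] {q : Γ → GG k N} (hq : PH q) {gap : Fin N → Γ → ℝ} {c C : ℝ}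
    (hc : 0 < c) (hcrt : ∀ g, ∃ a U U' V V', Crt (q g).1 a U U' V V' ∧
      ∀ i : Fin N, |gap i g - c * lg a i| ≤ C) (i₀ : Fin N) (h0 : 0 < (i₀ : ℕ))
    (h1 : (i₀ : ℕ) + 1 < N) : Tests gap id Finset.univ i₀ := by
  letI : MeasurableSpace k := borel k
  haveI : BorelSpace k := ⟨rfl⟩
  obtain ⟨⟨e, he⟩, e', he'⟩ := exists_sides (n := N + 1) (mrp_ph hq) (gap := gap) hc hcrt i₀
  refine tests_of Function.injective_id he he' ⟨⟨0, by omega⟩, h0⟩ ⟨⟨(i₀ : ℕ) + 1, h1⟩, ?_⟩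
    (fun x hx => ⟨Finset.mem_univ _, hx⟩) fun x hx => ⟨Finset.mem_univ _, hx⟩
  change (i₀ : ℕ) < (i₀ : ℕ) + 1
  exact Nat.lt_succ_self _

end tests

section main

variable {k : Type} [NontriviallyNormedField k] [ProperSpace k] {m : ℕ}
  {E : Type} [Group E] [TopologicalSpace E] [IsTopologicalGroup E] [LocallyCompactSpace E]
  [SecondCountableTopology E] [T2Space E] [MeasurableSpace E] [BorelSpace E] [NoncompactSpace E]
  {Γ : Subgroup E} [DiscreteTopology Γ] [Countable Γ] [MeasurableSpace (E ⧸ Γ)]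
  [BorelSpace (E ⧸ Γ)] {ν : Measure (E ⧸ Γ)} [IsProbabilityMeasure ν]
  (hν : ∀ g : E, ν.map (fun x => g • x) = ν)
  {Λ : Type} [Group Λ] [Countable Λ] {α : Γ →* (Ell2 Λ →L[ℂ] Ell2 Λ)} (hα : Frame α)
  {ι : GG k (m + 1) →* E}

theorem uc_inner {K K' : Type} [NormedAddCommGroup K] [InnerProductSpace ℂ K] [CompleteSpace K]
    [NormedAddCommGroup K'] [InnerProductSpace ℂ K'] [CompleteSpace K'] (W : K ≃ₗᵢ[ℂ] K')
    (A B : K →L[ℂ] K) (ξ : K) : ⟪H142.uc W B (W ξ), H142.uc W A (H142.uc W B (W ξ))⟫_ℂ =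
      ⟪B ξ, A (B ξ)⟫_ℂ := by
  rw [H142.uc_W, H142.uc_W, LinearIsometryEquiv.inner_map_map]

/-- The masses of `H805.RowN` / `H584.Tau.msF` in the letters of the picture. -/
theorem massX_eq (g : E) (F : Γ → ℝ) :
    H132.massX (H538.fst (H790.baseL (H85.cdat ν hν).μ (Γ × Γ) Unit))
      (H790.Ri (H85.cdat ν hν) (RC.VR hα)) g F =
      (⟪pic hν hα g (Om ν Λ), mpE ν hα F (pic hν hα g (Om ν Λ))⟫_ℂ).re := by
  have h := uc_inner (H805.Row.JE ν hα) ((H538.fst (H790.baseL ν (Γ × Γ) Unit)).mp F)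
    (H790.Ri (H85.cdat ν hν) (RC.VR hα) g) (H790.ept ν ())
  have h2 : H132.massX (H538.fst (H790.baseL (H85.cdat ν hν).μ (Γ × Γ) Unit))
      (H790.Ri (H85.cdat ν hν) (RC.VR hα)) g F =
      (⟪H790.Ri (H85.cdat ν hν) (RC.VR hα) g (H790.ept ν ()),
        (H538.fst (H790.baseL ν (Γ × Γ) Unit)).mp F
          (H790.Ri (H85.cdat ν hν) (RC.VR hα) g (H790.ept ν ()))⟫_ℂ).re := by
    unfold H132.massX
    rw [Fintype.sum_unique]
    rfl
  rw [← H805.Row.uc_pi hν hα g, ← H805.Row.JE_Om hα ()]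
  exact h2.trans (congrArg Complex.re h.symm)

/-- (sc') for the image of a Moore set of any group `G₁` mapped to `E`. -/
theorem sc_gen (hΛ : ∀ g : Λ, g ≠ 1 → Set.Infinite {y : Λ | ∃ h, y = h * g * h⁻¹})
    {G₁ S : Type} [Group G₁] [TopologicalSpace G₁] [IsTopologicalGroup G₁] [Group S]
    [TopologicalSpace S] {ι₁ : G₁ →* E} (hι : Continuous ι₁) {N₀ : Set G₁} (hM : Moore N₀)
    {θ₁ : S →* G₁} :
    Sc (pic hν hα) (lam₁ ν α) (XX ν Λ ∪ Set.range (lam₂ ν α)) (ι₁.comp θ₁) (ι₁ '' N₀) := by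
  have hP := H805.RowN.picE hν hα hΛ
  have tv : ∀ Y ∈ SD.MM (lam₁ ν α) (XX ν Λ ∪ Set.range (lam₂ ν α)), ∀ h : E,
      ⟪pic hν hα h (Om ν Λ), Y (pic hν hα h (Om ν Λ))⟫_ℂ = ⟪Om ν Λ, Y (Om ν Λ)⟫_ℂ := by
    rintro Y ⟨hY, hY1⟩ h
    exact H103.tv_gen hν hα (fun A hA => hY _ (Or.inl ⟨A, hA, rfl⟩)) hY1
      (fun g => hY _ (Or.inr ⟨g, rfl⟩)) h
  intro T h1 h2 s
  exact H515.Tau.sc_fac' hP tv hι hM (ZZ := H618.HMK.ZN _ _ (ι₁ '' N₀)) (fun w hw => Or.inl hw)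
    (fun n hn => Or.inr ⟨ι₁ n, Or.inl ⟨n, hn, rfl⟩, rfl⟩) T h1 h2 (θ₁ s)

/-- **HMIA, general form.** `z₀` and `N₀` are given in `SL_(m+2)(k)`. -/
theorem hmi_of (hΛ : ∀ g : Λ, g ≠ 1 → Set.Infinite {y : Λ | ∃ h, y = h * g * h⁻¹})
    (hk : H933.LocK k) (hm : 1 ≤ m) (hι : Continuous ι) {z₀ : ℕ → GG k (m + 1)}
    (hz₀ : ∀ N s, blk k (m + 1) s * z₀ N = z₀ N * blk k (m + 1) s) {N₀ : Set (GG k (m + 1))}
    (con₀ : ∀ n ∈ N₀, Tendsto (fun N => z₀ N * n * (z₀ N)⁻¹) atTop (𝓝 1))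
    (nrm₀ : ∀ s, ∀ n ∈ N₀, blk k (m + 1) s * n * (blk k (m + 1) s)⁻¹ ∈ N₀) (hM : Moore N₀)
    {J : Type} [Fintype J] [DecidableEq J] {r : ℕ} {gap : J → Γ → ℝ} {cl : J → Fin r}
    {A : Finset (Fin r)} {i₀ : J} {mass : E → (Γ → ℝ) → ℝ}
    (hmass : ∀ g (F : Γ → ℝ), (∀ x, |F x| ≤ 1) → mass g F =
      (⟪pic hν hα g (Om ν Λ), mpE ν hα F (pic hν hα g (Om ν Λ))⟫_ℂ).re)
    (hg : Gaps gap cl) (hT : Tests gap cl A i₀) :
    HMIA mass gap cl A i₀ (fun n => ι (z₀ n)) (sg ι) (cocompact (GG k m)) := by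
  have hB := baseE hν hα hΛ (θ := sg ι) (sg_cont hι) (z := fun n => ι (z₀ n))
    (fun N s => by
      change ι (blk k (m + 1) s) * ι (z₀ N) = ι (z₀ N) * ι (blk k (m + 1) s)
      rw [← map_mul, hz₀, map_mul]) (Nb := ι '' N₀)
    (by
      rintro _ ⟨n, hn, rfl⟩
      have h1 := (hι.tendsto 1).comp (con₀ n hn)
      rw [map_one] at h1
      refine h1.congr fun N => ?_
      change ι (z₀ N * n * (z₀ N)⁻¹) = _
      rw [map_mul, map_mul, map_inv])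
    (by
      rintro s _ ⟨n, hn, rfl⟩
      refine ⟨_, nrm₀ s n hn, ?_⟩
      rw [map_mul, map_mul, map_inv]
      rfl)
  exact hB.hmia (H933.hm_sl hk (by omega)) (sc_gen hν hα hΛ hι hM) hg hmass hT

/-- **HMIA**, `b = ι (bw w)`. -/
theorem hmiA (hΛ : ∀ g : Λ, g ≠ 1 → Set.Infinite {y : Λ | ∃ h, y = h * g * h⁻¹})
    (hk : H933.LocK k) (hm : 1 ≤ m) (hι : Continuous ι) {w : kˣ} (hw : ‖(w : k)‖ < 1)
    {J : Type} [Fintype J] [DecidableEq J] {r : ℕ} {gap : J → Γ → ℝ} {cl : J → Fin r}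
    {A : Finset (Fin r)} {i₀ : J} {mass : E → (Γ → ℝ) → ℝ}
    (hmass : ∀ g (F : Γ → ℝ), (∀ x, |F x| ≤ 1) → mass g F =
      (⟪pic hν hα g (Om ν Λ), mpE ν hα F (pic hν hα g (Om ν Λ))⟫_ℂ).re)
    (hg : Gaps gap cl) (hT : Tests gap cl A i₀) :
    HMIA mass gap cl A i₀ (fun n => ι (bw w) ^ n) (sg ι) (cocompact (GG k m)) := by
  have h := hmi_of hν hα hΛ hk hm hι (z₀ := fun n => (bw w : GG k (m + 1)) ^ n)
    (fun N s => ((bw_comm_blk w s).pow_left N).symm.eq) (con_ctr (bw w))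
    (fun s n hn => nrm_ctr (bw_comm_blk w s).symm hn) (moore_ctr_sl hk (by omega) hw)
    hmass hg hT
  have e : (fun n : ℕ => ι ((bw w : GG k (m + 1)) ^ n)) = fun n => ι (bw w) ^ n :=
    funext fun n => map_pow ι _ n
  rwa [e] at h

/-- **HMIA**, `b = (ι (bw w))⁻¹`. -/
theorem hmiA_inv (hΛ : ∀ g : Λ, g ≠ 1 → Set.Infinite {y : Λ | ∃ h, y = h * g * h⁻¹})
    (hk : H933.LocK k) (hm : 1 ≤ m) (hι : Continuous ι) {w : kˣ} (hw : ‖(w : k)‖ < 1)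
    {J : Type} [Fintype J] [DecidableEq J] {r : ℕ} {gap : J → Γ → ℝ} {cl : J → Fin r}
    {A : Finset (Fin r)} {i₀ : J} {mass : E → (Γ → ℝ) → ℝ}
    (hmass : ∀ g (F : Γ → ℝ), (∀ x, |F x| ≤ 1) → mass g F =
      (⟪pic hν hα g (Om ν Λ), mpE ν hα F (pic hν hα g (Om ν Λ))⟫_ℂ).re)
    (hg : Gaps gap cl) (hT : Tests gap cl A i₀) :
    HMIA mass gap cl A i₀ (fun n => (ι (bw w))⁻¹ ^ n) (sg ι) (cocompact (GG k m)) := by
  have h := hmi_of hν hα hΛ hk hm hι (z₀ := fun n => ((bw w : GG k (m + 1))⁻¹) ^ n)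
    (fun N s => (((bw_comm_blk w s).inv_left).pow_left N).symm.eq) (con_ctr (bw w)⁻¹)
    (fun s n hn => nrm_ctr ((bw_comm_blk w s).symm.inv_right) hn)
    (moore_ctr_sl_inv hk (by omega) hw) hmass hg hT
  have e : (fun n : ℕ => ι (((bw w : GG k (m + 1))⁻¹) ^ n)) = fun n => (ι (bw w))⁻¹ ^ n :=
    funext fun n => by rw [map_pow, map_inv]
  rwa [e] at h

/-- **(U4)**, one factor, both directions. -/
theorem hmi (hΛ : ∀ g : Λ, g ≠ 1 → Set.Infinite {y : Λ | ∃ h, y = h * g * h⁻¹})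
    (hk : H933.LocK k) (hι : Continuous ι) {w : kˣ} (hw : ‖(w : k)‖ < 1) {q : Γ → GG k (m + 1)}
    (hq : PH q) {gap : Fin (m + 1) → Γ → ℝ} {c C : ℝ} (hc : 0 < c)
    (hcrt : ∀ g, ∃ a U U' V V', Crt (q g).1 a U U' V V' ∧
      ∀ i : Fin (m + 1), |gap i g - c * lg a i| ≤ C) {mass : E → (Γ → ℝ) → ℝ}
    (hmass : ∀ g (F : Γ → ℝ), (∀ x, |F x| ≤ 1) → mass g F =
      (⟪pic hν hα g (Om ν Λ), mpE ν hα F (pic hν hα g (Om ν Λ))⟫_ℂ).re)
    (hg : Gaps gap id) (i₀ : Fin (m + 1)) (h0 : 0 < (i₀ : ℕ)) (h1 : (i₀ : ℕ) + 1 < m + 1) :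
    HMIA mass gap id Finset.univ i₀ (fun n => ι (bw w) ^ n) (sg ι) (cocompact (GG k m)) ∧
      HMIA mass gap id Finset.univ i₀ (fun n => (ι (bw w))⁻¹ ^ n) (sg ι)
        (cocompact (GG k m)) :=
  ⟨hmiA hν hα hΛ hk (by omega) hι hw hmass hg (tests_crt hq hc hcrt i₀ h0 h1),
    hmiA_inv hν hα hΛ hk (by omega) hι hw hmass hg (tests_crt hq hc hcrt i₀ h0 h1)⟩

end main

end Vale.Agent.P092.H618.Hmi
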