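import Vale.Agent.P092.H618.HMI
import Vale.Agent.P092.H805.RowN

/-!
P092 (helper618, compiled by helper859), [N-GAPB]: `H618.HMK.Base` on the frame picture over any
locally compact second countable group `E`.
-/

set_option linter.all false

open scoped InnerProductSpace ENNReal
open Filter Topology ContinuousLinearMap MeasureTheory TopologicalSpace

namespace Vale.Agent.P092.H618.BaseE

open Vale.Agent.P092.SR Vale.Agent.P092.H160
open Vale.Agent.P092.H859.CL (BB)
open Vale.Agent.P092.RC (KK pic lam₁ lam₂ XX Om Pic)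
open Vale.Agent.P092.H805.RowN (Bd Bf msE sysE mcovE mWE slowE locE picE)
open Vale.Agent.P092.H805.Row (mpE)
open Vale.Agent.P092.H618.HMK (Base)

variable {E : Type} [Group E] [TopologicalSpace E] [IsTopologicalGroup E] [LocallyCompactSpace E]
  [SecondCountableTopology E] [T2Space E] [MeasurableSpace E] [BorelSpace E]
  {Γ : Subgroup E} [DiscreteTopology Γ] [Countable Γ] [MeasurableSpace (E ⧸ Γ)]
  [BorelSpace (E ⧸ Γ)] {ν : Measure (E ⧸ Γ)} [IsProbabilityMeasure ν]
  (hν : ∀ g : E, ν.map (fun x => g • x) = ν)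
  {Λ : Type} [Group Λ] [Countable Λ] {α : Γ →* (Ell2 Λ →L[ℂ] Ell2 Λ)} (hα : Frame α)
  [NoncompactSpace E] {S : Type} [Group S] [TopologicalSpace S]

/-- **`Base` on the frame picture.** -/
theorem baseE (hΛ : ∀ g : Λ, g ≠ 1 → Set.Infinite {y : Λ | ∃ h, y = h * g * h⁻¹}) {θ : S →* E}
    (hθ : Continuous θ) {z : ℕ → E} (hz : ∀ N s, θ s * z N = z N * θ s) {Nb : Set E}
    (con : ∀ n ∈ Nb, Tendsto (fun N => z N * n * (z N)⁻¹) atTop (𝓝 1))
    (nrm : ∀ s, ∀ n ∈ Nb, θ s * n * (θ s)⁻¹ ∈ Nb) :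
    Base (pic hν hα) (lam₁ ν α) (XX ν Λ ∪ Set.range (lam₂ ν α)) (Om ν Λ) (mpE ν hα)
      (Bd ν hα) (Bf ν hα) θ z Nb := by
  have h0 := sysE hν hα (A := (⊥ : Subgroup E)) (G1 := fun _ => (0 : ℝ)) (G2 := fun _ => (0 : ℝ))
    (fun s u => ⟨0, fun x => by simp⟩) (fun ε hε => ⟨0, fun u _ => ?_⟩)
  · exact
      { pic := picE hν hα hΛ
        fn := h0.fn
        cov := mcovE hν hα
        Wm := mWE hν hα
        dense := h0.sys.dense
        norm := h0.sys.norm
        map := h0.sys.map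
        slow := slowE hν hα
        loc := locE hν hα
        cont := hθ
        cz := hz
        con := con
        nrm := nrm }
  · have e : BB (fun _ : Γ => (0 : ℝ)) (fun _ => (0 : ℝ)) 0 = ∅ := by ext g; simp [BB]
    rw [e]
    have e2 : (H538.ind fun g : Γ => g ∈ (∅ : Set Γ)) =
        fun g => (0 : ℝ) * H538.ind (fun g : Γ => g ∈ (∅ : Set Γ)) g := by
      funext g; simp [H538.ind]
    rw [msE, H805.Row.msR, e2, H132.massX_smul _ _ _ _ 1 0 (fun g => H538.abs_ind_le _ _), zero_mul]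
    exact hε.le

end Vale.Agent.P092.H618.BaseE
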