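import Vale.Agent.P092.H325.UltraQ
import Vale.Agent.P092.H43.LocN
import Vale.Agent.P092.RC.Defs

/-!
P092 (helper618), Team N, block [N-GAPB], part (1): the operators of the positive semidefinite
kernel. `E γ γ' = w-lim π(b^N)⁻¹ m(χ_N(k) ε(k⁻¹γ, k⁻¹γ')) π(b^N)`, `A γ = E γ 1` without the
cocycle `k⁻¹` in the second variable.
-/

set_option linter.all false

open scoped InnerProductSpace
open Filter Topology ContinuousLinearMap

namespace Vale.Agent.P092.H618.HMK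

open Vale.Agent.P092.H859.CL (Fn Rep PF PF_ap PF_opNorm PF_sym Leg Slow mc PC mul_ap' PC_real mc_real
  bform_of_total)
open Vale.Agent.P092.H43 (Loc2 key_le)
open Vale.Agent.P092.H325 (WLim exists_ulim)
open Vale.Agent.P092.RC (Pic Moore Cm)

/-! ### Positive semidefinite kernels -/

/-- symmetric positive semidefinite kernels -/
structure Psd {X : Type} (ε : X → X → ℝ) : Prop where
  symm : ∀ x y, ε x y = ε y x
  nonneg : ∀ (s : Finset X) (c : X → ℝ), 0 ≤ ∑ x ∈ s, ∑ y ∈ s, c x * c y * ε x y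

/-- families of points, with repetitions -/
theorem Psd.fam {X ι : Type} [Fintype ι] {ε : X → X → ℝ} (h : Psd ε) (P : ι → X) (c : ι → ℝ) :
    0 ≤ ∑ i, ∑ j, c i * c j * ε (P i) (P j) := by
  classical
  obtain ⟨s, hs⟩ : ∃ s : Finset X, s = Finset.univ.image P := ⟨_, rfl⟩
  have hP : ∀ i ∈ (Finset.univ : Finset ι), P i ∈ s := fun i _ => by
    rw [hs]; exact Finset.mem_image_of_mem _ (Finset.mem_univ i)
  have h1 := h.nonneg s fun x => ∑ i with P i = x, c i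
  have h2 : ∀ f : ι → X → ℝ, ∑ x ∈ s, ∑ i with P i = x, f i x = ∑ i, f i (P i) := by
    intro f
    rw [← Finset.sum_fiberwise_of_maps_to hP]
    refine Finset.sum_congr rfl fun x _ => Finset.sum_congr rfl fun i hi => ?_
    rw [(Finset.mem_filter.1 hi).2]
  have h3 : ∑ x ∈ s, ∑ y ∈ s, (∑ i with P i = x, c i) * (∑ i with P i = y, c i) * ε x y =
      ∑ i, ∑ j, c i * c j * ε (P i) (P j) := by
    have e1 : ∀ x, ∑ y ∈ s, (∑ i with P i = x, c i) * (∑ j with P j = y, c j) * ε x y =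
        (∑ i with P i = x, c i) * ∑ j, c j * ε x (P j) := by
      intro x
      rw [← h2 fun j y => c j * ε x y, Finset.mul_sum]
      refine Finset.sum_congr rfl fun y _ => ?_
      rw [mul_assoc]
      congr 1
      rw [Finset.sum_mul]
    rw [Finset.sum_congr rfl fun x _ => e1 x]
    have e2 : ∀ x, (∑ i with P i = x, c i) * ∑ j, c j * ε x (P j) =
        ∑ i with P i = x, c i * ∑ j, c j * ε x (P j) := fun x => Finset.sum_mul ..
    rw [Finset.sum_congr rfl fun x _ => e2 x, h2 fun i x => c i * ∑ j, c j * ε x (P j)]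
    refine Finset.sum_congr rfl fun i _ => ?_
    rw [Finset.mul_sum]
    exact Finset.sum_congr rfl fun j _ => by ring
  rw [h3] at h1
  exact h1

theorem Psd.diag {X : Type} {ε : X → X → ℝ} (h : Psd ε) (x : X) : 0 ≤ ε x x := by
  have := h.fam (ι := Unit) (fun _ => x) fun _ => 1
  simpa using this

/-- Cauchy-Schwarz -/
theorem Psd.abs_le {X : Type} {ε : X → X → ℝ} (h : Psd ε) (h1 : ∀ x, ε x x ≤ 1) (x y : X) :
    |ε x y| ≤ 1 := by
  have k1 := h.fam (ι := Fin 2) ![x, y] ![1, 1]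
  have k2 := h.fam (ι := Fin 2) ![x, y] ![1, -1]
  simp [Fin.sum_univ_two] at k1 k2
  have := h.symm y x
  have := h1 x
  have := h1 y
  rw [_root_.abs_le]
  constructor <;> linarith

/-- The real matrix of a psd kernel at a family of points, with a nonnegative factor. -/
theorem Psd.mat {X ι : Type} [Fintype ι] [DecidableEq ι] {ε : X → X → ℝ} (h : Psd ε) (P : ι → X)
    {c : ℝ} (hc : 0 ≤ c) : (Matrix.of fun i j => c * ε (P i) (P j)).PosSemidef := by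
  refine Matrix.PosSemidef.of_dotProduct_mulVec_nonneg ?_ ?_
  · ext i j
    simp [Matrix.conjTranspose_apply, h.symm (P j) (P i)]
  · intro x
    have h1 := h.fam P x
    have h2 : star x ⬝ᵥ (Matrix.of fun i j => c * ε (P i) (P j)).mulVec x =
        c * ∑ i, ∑ j, x i * x j * ε (P i) (P j) := by
      simp only [dotProduct, Matrix.mulVec, Matrix.of_apply, star_trivial, Pi.star_apply]
      rw [Finset.mul_sum]
      refine Finset.sum_congr rfl fun i _ => ?_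
      rw [Finset.mul_sum, Finset.mul_sum]
      exact Finset.sum_congr rfl fun j _ => by ring
    rw [h2]
    positivity

/-! ### Positivity of matrices of multiplication operators -/

section fn

open scoped MatrixOrder in
theorem exists_sq {ι : Type} [Fintype ι] [DecidableEq ι] {M : Matrix ι ι ℝ}
    (hM : M.PosSemidef) : ∃ B : Matrix ι ι ℝ, M = B.conjTranspose * B := by
  obtain ⟨B, hB⟩ := CStarAlgebra.nonneg_iff_eq_star_mul_self.mp hM.nonneg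
  exact ⟨B, by rw [hB, Matrix.star_eq_conjTranspose]⟩

variable {Γ K : Type} [NormedAddCommGroup K] [InnerProductSpace ℂ K] [CompleteSpace K]
  {mp : (Γ → ℝ) → (K →L[ℂ] K)}

theorem fn_psd (h : Fn mp) {ι : Type} [Fintype ι] [DecidableEq ι] {e : ι → ι → Γ → ℝ} {C : ℝ}
    (he : ∀ g, (Matrix.of fun i j => e i j g).PosSemidef) (hb : ∀ i g, e i i g ≤ C) (η : ι → K) :
    0 ≤ (∑ i, ∑ j, ⟪η j, mp (e j i) (η i)⟫_ℂ).re := by
  have h1 : ∀ g, ∃ B : Matrix ι ι ℝ, (Matrix.of fun i j => e i j g) = B.conjTranspose * B := fun g =>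
    exists_sq (he g)
  choose B hB using h1
  have h2 : ∀ i j g, e i j g = ∑ a, B g a i * B g a j := by
    intro i j g
    have := congrFun (congrFun (hB g) i) j
    simpa [Matrix.mul_apply, Matrix.conjTranspose_apply] using this
  have h3 : ∀ a i g, |B g a i| ≤ Real.sqrt C := by
    intro a i g
    refine Real.abs_le_sqrt ?_
    have k1 := h2 i i g
    have k2 := hb i g
    have k3 : B g a i * B g a i ≤ ∑ a, B g a i * B g a i :=
      Finset.single_le_sum (f := fun a => B g a i * B g a i) (fun _ _ => mul_self_nonneg _)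
        (Finset.mem_univ a)
    rw [sq]
    linarith
  have h4 : ∀ i j, mp (e j i) = ∑ a, mp (fun g => B g a j) * mp (fun g => B g a i) := by
    intro i j
    have k1 : e j i = fun g => ∑ a, B g a j * B g a i := funext fun g => h2 j i g
    have k2 : ∀ a g, |B g a j * B g a i| ≤ Real.sqrt C * Real.sqrt C := fun a g => by
      rw [abs_mul]
      exact mul_le_mul (h3 a j g) (h3 a i g) (abs_nonneg _) (Real.sqrt_nonneg _)
    rw [k1, h.sum Finset.univ k2]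
    exact Finset.sum_congr rfl fun a _ => h.mul (h3 a j) (h3 a i)
  have h5 : ∑ i, ∑ j, ⟪η j, mp (e j i) (η i)⟫_ℂ =
      ∑ a, ⟪∑ j, mp (fun g => B g a j) (η j), ∑ i, mp (fun g => B g a i) (η i)⟫_ℂ := by
    have k1 : ∀ i j, ⟪η j, mp (e j i) (η i)⟫_ℂ =
        ∑ a, ⟪mp (fun g => B g a j) (η j), mp (fun g => B g a i) (η i)⟫_ℂ := by
      intro i j
      rw [h4, ContinuousLinearMap.sum_apply, inner_sum]
      refine Finset.sum_congr rfl fun a _ => ?_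
      rw [h.inner_left (h3 a j)]
      rfl
    simp only [k1]
    have k2 : ∀ i, ∑ j, ∑ a, ⟪mp (fun g => B g a j) (η j), mp (fun g => B g a i) (η i)⟫_ℂ =
        ∑ a, ∑ j, ⟪mp (fun g => B g a j) (η j), mp (fun g => B g a i) (η i)⟫_ℂ := fun i =>
      Finset.sum_comm
    simp only [k2]
    rw [Finset.sum_comm]
    refine Finset.sum_congr rfl fun a _ => ?_
    rw [inner_sum]
    refine Finset.sum_congr rfl fun i _ => ?_
    rw [sum_inner]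
  rw [h5, Complex.re_sum]
  refine Finset.sum_nonneg fun a _ => ?_
  exact inner_self_nonneg (𝕜 := ℂ)

end fn

/-! ### Weak limits of conjugated multiplication operators -/

section lim

variable {Γ D K : Type} [Group D] [NormedAddCommGroup K] [InnerProductSpace ℂ K]
  [CompleteSpace K] {mp : (Γ → ℝ) → (K →L[ℂ] K)} {R : D → (K →L[ℂ] K)} {Bd Bf : Set K}
  {W : Set (K →L[ℂ] K)} {z : ℕ → D} {U : Filter ℕ} {F F' : ℕ → Γ → ℝ} {S S' : K →L[ℂ] K}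

/-- `S` is the weak limit of `R (z N)⁻¹ m(F N) R (z N)`. -/
def IsL (mp : (Γ → ℝ) → (K →L[ℂ] K)) (R : D → (K →L[ℂ] K)) (z : ℕ → D) (U : Filter ℕ)
    (F : ℕ → Γ → ℝ) (S : K →L[ℂ] K) : Prop :=
  WLim U (fun N => PF mp R (z N) (F N)) S

theorem exists_isL (h : Fn mp) (hR : Rep R) (U : Ultrafilter ℕ) (z : ℕ → D)
    (hF : ∀ N g, |F N g| ≤ 1) : ∃ S, IsL mp R z (U : Filter ℕ) F S := by
  obtain ⟨S, -, hS⟩ := exists_ulim U (fun N => PF mp R (z N) (F N)) 1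
    fun N => PF_opNorm h hR zero_le_one (hF N) (z N)
  exact ⟨S, hS⟩

theorem pf_adj (h : Fn mp) (hR : Rep R) {F : Γ → ℝ} {C : ℝ} (hF : ∀ g, |F g| ≤ C) (w : D) :
    adjoint (PF mp R w F) = PF mp R w F :=
  ((eq_adjoint_iff _ _).2 fun x y => PF_sym h hR hF w x y).symm

theorem IsL.adj [U.NeBot] (h : Fn mp) (hR : Rep R) (hF : ∀ N g, |F N g| ≤ 1)
    (hS : IsL mp R z U F S) : adjoint S = S := by
  have h1 := WLim.adj hS
  refine h1.unique (WLim.congr hS (Eventually.of_forall fun N => ?_))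
  exact (pf_adj h hR (hF N) (z N)).symm

theorem pf_sub (h : Fn mp) (hR : Rep R) {F G : Γ → ℝ} {C C' : ℝ} (hF : ∀ g, |F g| ≤ C)
    (hG : ∀ g, |G g| ≤ C') (w : D) :
    PF mp R w (fun g => F g - G g) = PF mp R w F - PF mp R w G := by
  rw [PF, PF, PF, h.sub hF hG, mul_sub, sub_mul]

/-- uniformly small changes of the functions -/
theorem IsL.pert (h : Fn mp) (hR : Rep R) (hF : ∀ N g, |F N g| ≤ 1) (hF' : ∀ N g, |F' N g| ≤ 1)
    (hd : ∀ δ : ℝ, 0 < δ → ∀ᶠ N in U, ∀ g, |F' N g - F N g| ≤ δ) (hS : IsL mp R z U F S) :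
    IsL mp R z U F' S := by
  refine WLim.of_norm hS ?_
  rw [Metric.tendsto_nhds]
  intro δ hδ
  filter_upwards [hd (δ / 2) (by positivity)] with N hN
  rw [dist_zero_right, norm_norm, ← pf_sub h hR (hF' N) (hF N)]
  exact (PF_opNorm h hR (by positivity) hN (z N)).trans_lt (by linarith)

theorem IsL.uniq [U.NeBot] (h1 : IsL mp R z U F S) (h2 : IsL mp R z U F S') : S = S' :=
  WLim.unique h1 h2

/-- matrix coefficients -/
theorem IsL.coef (hR : Rep R) (hS : IsL mp R z U F S) (x y : K) :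
    Tendsto (fun N => ⟪R (z N) x, mp (F N) (R (z N) y)⟫_ℂ) U (𝓝 ⟪x, S y⟫_ℂ) := by
  refine (hS x y).congr fun N => ?_
  change ⟪x, R (z N)⁻¹ (mp (F N) (R (z N) y))⟫_ℂ = _
  rw [← hR.inner_left]

end lim

section lim2

variable {Γ D K : Type} [Group Γ] [Group D] [NormedAddCommGroup K] [InnerProductSpace ℂ K]
  [CompleteSpace K] {mp : (Γ → ℝ) → (K →L[ℂ] K)} {R : D → (K →L[ℂ] K)} {Bd Bf : Set K}
  {lam : Γ → (K →L[ℂ] K)} {W : Set (K →L[ℂ] K)} {z : ℕ → D} {U : Filter ℕ} {F F' : ℕ → Γ → ℝ}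
  {S S' : K →L[ℂ] K}

theorem pf_lam (hL : Leg mp R lam W) (h : Fn mp) (γ : Γ) {F : Γ → ℝ} (hF : ∀ g, |F g| ≤ 1)
    (w : D) : lam γ * PF mp R w F * lam γ⁻¹ = PF mp R w fun g => F (γ⁻¹ * g) := by
  rw [PF, PF, ← hL.cov γ F hF]
  calc lam γ * (R w⁻¹ * mp F * R w) * lam γ⁻¹
      = (lam γ * R w⁻¹) * mp F * (R w * lam γ⁻¹) := by simp only [mul_assoc]
    _ = (R w⁻¹ * lam γ) * mp F * (lam γ⁻¹ * R w) := by rw [← hL.comm, hL.comm w γ⁻¹]
    _ = _ := by simp only [mul_assoc]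

theorem IsL.lamc (hL : Leg mp R lam W) (h : Fn mp) (s : Γ) (hF : ∀ N g, |F N g| ≤ 1)
    (hS : IsL mp R z U F S) :
    IsL mp R z U (fun N g => F N (s⁻¹ * g)) (lam s * S * lam s⁻¹) := by
  have h1 := (WLim.mul_left hS (lam s)).mul_right (lam s⁻¹)
  exact h1.congr (Eventually.of_forall fun N => pf_lam hL h s (hF N) (z N))

theorem IsL.commW [U.NeBot] (hL : Leg mp R lam W) (h : Fn mp) (hR : Rep R)
    (hF : ∀ N g, |F N g| ≤ 1) (hS : IsL mp R z U F S) {a : K →L[ℂ] K} (ha : a ∈ W) :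
    a * S = S * a := by
  refine (WLim.commute hS fun N => ?_).symm
  have h1 := H859.CL.PC_W hL h hR ha (F := fun g => (F N g : ℂ)) (C := 1) (fun g => by
    rw [Complex.norm_real]; exact hF N g) (z N)
  rw [PC_real h] at h1
  exact h1.symm

/-- Contracted elements. -/
theorem IsL.slow [U.NeBot] [TopologicalSpace D] (h : Fn mp) (hR : Rep R)
    (hd : Dense ((Submodule.span ℂ Bd : Submodule ℂ K) : Set K))
    (hm : ∀ v, ∀ ξ ∈ Bd, R v ξ ∈ Bd) (hsl : Slow mp R Bd) (hF : ∀ N g, |F N g| ≤ 1)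
    (hS : IsL mp R z U F S) {n : D} (hn : Tendsto (fun N => z N * n * (z N)⁻¹) U (𝓝 1)) :
    S * R n = R n * S := by
  have hC : ∀ N, ‖PF mp R (z N) (F N) * R n - R n * PF mp R (z N) (F N)‖ ≤ 2 := fun N => by
    have h1 := PF_opNorm h hR zero_le_one (hF N) (z N)
    have h2 := hR.opNorm_le n
    have h3 : ‖PF mp R (z N) (F N) * R n‖ ≤ 1 := (norm_mul_le _ _).trans
      (mul_le_one₀ h1 (norm_nonneg _) h2)
    have h4 : ‖R n * PF mp R (z N) (F N)‖ ≤ 1 := (norm_mul_le _ _).trans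
      (mul_le_one₀ h2 (norm_nonneg _) h1)
    exact (norm_sub_le _ _).trans (by linarith)
  have key : ∀ ξ, Tendsto (fun N => (PF mp R (z N) (F N) * R n - R n * PF mp R (z N) (F N)) ξ) U
      (𝓝 0) := by
    refine H859.CL.vec_of_total hC hd fun ζ hζ => ?_
    rw [Metric.tendsto_nhds]
    intro δ hδ
    filter_upwards [hn.eventually (hsl (δ / 2) (by positivity))] with N hN
    rw [dist_zero_right]
    obtain ⟨w, hw⟩ : ∃ w, w = z N := ⟨_, rfl⟩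
    rw [← hw] at hN ⊢
    obtain ⟨e, he⟩ : ∃ e, e = w * n * w⁻¹ := ⟨_, rfl⟩
    rw [← he] at hN
    have e1 : (PF mp R w (F N) * R n - R n * PF mp R w (F N)) ζ =
        R w⁻¹ (mp (F N) (R e (R w ζ)) - R e (mp (F N) (R w ζ))) := by
      have a1 : R w (R n ζ) = R e (R w ζ) := by
        rw [← mul_ap', ← mul_ap', ← hR.mul, ← hR.mul, he]
        congr 2; group
      have a2 : ∀ x, R n (R w⁻¹ x) = R w⁻¹ (R e x) := fun x => by
        rw [← mul_ap', ← mul_ap', ← hR.mul, ← hR.mul, he]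
        congr 2; group
      rw [sub_apply, mul_ap', mul_ap', PF_ap, PF_ap, a1, a2, map_sub]
    rw [e1]
    refine (hR.norm_le _ _).trans_lt ?_
    rw [norm_sub_rev]
    exact (hN (F N) (hF N) (R w ζ) (hm _ _ hζ)).trans_lt (by linarith)
  have h1 := (WLim.mul_right hS (R n)).sub (WLim.mul_left hS (R n))
  have h2 : WLim U (fun N => PF mp R (z N) (F N) * R n - R n * PF mp R (z N) (F N))
      (0 : K →L[ℂ] K) := fun x y => by
    have h3 := (tendsto_const_nhds (x := x)).inner (𝕜 := ℂ) (key y)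
    rw [inner_zero_right] at h3
    rw [zero_apply, inner_zero_right]
    exact h3
  exact sub_eq_zero.1 (h1.unique h2)

/-- Locality: elements commuting with the sequence. -/
theorem IsL.loc [U.NeBot] (h : Fn mp) (hR : Rep R) (hn : ∀ ξ ∈ Bf, ‖ξ‖ ≤ 1)
    (hL : Loc2 mp R Bd Bf) (hF : ∀ N g, |F N g| ≤ 1) (hS : IsL mp R z U F S) {v : D}
    (hv : ∀ N, v * z N = z N * v)
    (hr : ∀ u : Γ, ∀ δ : ℝ, 0 < δ → ∀ᶠ N in U, ∀ g, |F N (g * u) - F N g| ≤ δ) :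
    R v * S = S * R v := by
  have hmc : ∀ N, mc mp (fun g => (F N g : ℂ)) = mp (F N) := fun N => mc_real h _
  -- the form
  have h1 : ∀ η ξ : K, Tendsto (fun N => ⟪R (z N) η, (mp (F N) * R v - R v * mp (F N))
      (R (z N) ξ)⟫_ℂ) U (𝓝 0) := by
    refine fun η ξ => bform_of_total (B := fun N x y => ⟪R (z N) x,
      (mp (F N) * R v - R v * mp (F N)) (R (z N) y)⟫_ℂ) (C := 2) (by norm_num)
      (fun N x y => ?_) (fun N x x' y => ?_) (fun N x y y' => ?_) (fun N c x y => ?_)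
      (fun N c x y => ?_) hL.dense (fun η hη ξ hξ => ?_) η ξ
    · have a1 : ‖mp (F N) * R v - R v * mp (F N)‖ ≤ 2 := by
        have b1 := h.opNorm_le zero_le_one (hF N)
        have b2 := hR.opNorm_le v
        have b3 : ‖mp (F N) * R v‖ ≤ 1 := (norm_mul_le _ _).trans
          (mul_le_one₀ b1 (norm_nonneg _) b2)
        have b4 : ‖R v * mp (F N)‖ ≤ 1 := (norm_mul_le _ _).trans
          (mul_le_one₀ b2 (norm_nonneg _) b1)
        exact (norm_sub_le _ _).trans (by linarith)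
      have a2 := hR.norm_le (z N) x
      have a3 := hR.norm_le (z N) y
      calc _ ≤ ‖R (z N) x‖ * ‖(mp (F N) * R v - R v * mp (F N)) (R (z N) y)‖ :=
            norm_inner_le_norm _ _
        _ ≤ ‖x‖ * (2 * ‖y‖) := by
            refine mul_le_mul a2 ?_ (norm_nonneg _) (norm_nonneg _)
            refine (ContinuousLinearMap.le_opNorm _ _).trans ?_
            exact mul_le_mul a1 a3 (norm_nonneg _) (by norm_num)
        _ = 2 * ‖x‖ * ‖y‖ := by ring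
    · simp only [map_add, inner_add_left]
    · simp only [map_add, inner_add_right]
    · simp only [map_smul, inner_smul_left, norm_mul, RCLike.norm_conj]
    · simp only [map_smul, inner_smul_right, norm_mul]
    · rw [Metric.tendsto_nhds]
      intro δ hδ
      obtain ⟨T, M, hM, hk⟩ := key_le h hL hn v (ε := δ / 2) (by positivity)
      obtain ⟨δ', hδ'⟩ : ∃ δ', δ' = δ / (4 * (M * (T.card + 1) + 1)) := ⟨_, rfl⟩
      have hδ'0 : 0 < δ' := by rw [hδ']; positivity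
      have hev : ∀ᶠ N in U, ∀ u ∈ T, ∀ g, |F N (g * u) - F N g| ≤ δ' :=
        (Finset.eventually_all T).2 fun u _ => hr u δ' hδ'0
      filter_upwards [hev] with N hN
      rw [dist_zero_right]
      have k1 := hk 1 one_pos (fun g => (F N g : ℂ)) (fun g => by
        rw [Complex.norm_real]; exact hF N g) (R (z N) ξ) (hL.map _ ξ hξ) (R (z N) η)
        (hL.map _ η hη)
      rw [hmc] at k1
      have k2 : ∀ u ∈ T, ‖mc mp (fun g => (F N (g * u) : ℂ) - (F N g : ℂ)) (R (z N) ξ)‖ ≤ δ' := by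
        intro u hu
        have c1 : (fun g => (F N (g * u) : ℂ) - (F N g : ℂ)) =
            fun g => ((F N (g * u) - F N g : ℝ) : ℂ) := by funext g; push_cast; rfl
        rw [c1, mc_real h]
        have c2 := h.norm_le hδ'0.le (hN u hu) (R (z N) ξ)
        have c3 := hn _ (hL.map (z N) ξ hξ)
        nlinarith
      have k3 := Finset.sum_le_card_nsmul T _ _ k2
      rw [nsmul_eq_mul] at k3
      have k4 : M * (T.card * δ') ≤ δ / 4 := by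
        have c1 : M * (T.card * δ') ≤ (M * (T.card + 1) + 1) * δ' := by
          have : 0 ≤ M * δ' := by positivity
          nlinarith
        have c2 : (M * (T.card + 1) + 1) * δ' = δ / 4 := by
          rw [hδ']
          have : M * (T.card + 1) + 1 ≠ 0 := by positivity
          field_simp
        linarith
      have k5 := mul_le_mul_of_nonneg_left k3 hM
      calc _ ≤ _ := k1
        _ < δ := by linarith
  -- passage to the limit
  have h2 := (WLim.mul_right hS (R v)).sub (WLim.mul_left hS (R v))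
  have h3 : WLim U (fun N => PF mp R (z N) (F N) * R v - R v * PF mp R (z N) (F N))
      (0 : K →L[ℂ] K) := fun x y => by
    have e : ∀ N, ⟪x, (PF mp R (z N) (F N) * R v - R v * PF mp R (z N) (F N)) y⟫_ℂ =
        ⟪R (z N) x, (mp (F N) * R v - R v * mp (F N)) (R (z N) y)⟫_ℂ := by
      intro N
      have e1 : R (z N) * R v = R v * R (z N) := by rw [← hR.mul, ← hR.mul, hv]
      have e2 : R v * R (z N)⁻¹ = R (z N)⁻¹ * R v := by
        rw [← hR.mul, ← hR.mul]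
        congr 1
        rw [mul_inv_eq_iff_eq_mul, mul_assoc, hv, inv_mul_cancel_left]
      have e3 : PF mp R (z N) (F N) * R v - R v * PF mp R (z N) (F N) =
          R (z N)⁻¹ * ((mp (F N) * R v - R v * mp (F N)) * R (z N)) := by
        rw [PF]
        calc R (z N)⁻¹ * mp (F N) * R (z N) * R v - R v * (R (z N)⁻¹ * mp (F N) * R (z N))
            = R (z N)⁻¹ * mp (F N) * (R (z N) * R v) - (R v * R (z N)⁻¹) * mp (F N) * R (z N) := by
              simp only [mul_assoc]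
          _ = _ := by
              rw [e1, e2, sub_mul, mul_sub]
              simp only [mul_assoc]
      rw [e3]
      change ⟪x, R (z N)⁻¹ ((mp (F N) * R v - R v * mp (F N)) (R (z N) y))⟫_ℂ = _
      rw [← hR.inner_left]
    have h4 := h1 x y
    rw [zero_apply, inner_zero_right]
    exact h4.congr fun N => (e N).symm
  exact (sub_eq_zero.1 (h2.unique h3)).symm

end lim2

/-! ### The kernel -/

section ker

variable {Γ D K : Type} [Group Γ] [Group D] [NormedAddCommGroup K] [InnerProductSpace ℂ K]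
  [CompleteSpace K] {mp : (Γ → ℝ) → (K →L[ℂ] K)} {R : D → (K →L[ℂ] K)} {Bd Bf : Set K}
  {lam : Γ → (K →L[ℂ] K)} {W : Set (K →L[ℂ] K)} {z : ℕ → D} {U : Filter ℕ}
  {χ : ℕ → Γ → ℝ} {ε : Γ → Γ → ℝ} {E : Γ → Γ → (K →L[ℂ] K)} {A : Γ → (K →L[ℂ] K)}

/-- the cut kernel -/
def eN (χ : ℕ → Γ → ℝ) (ε : Γ → Γ → ℝ) (γ γ' : Γ) (N : ℕ) (k : Γ) : ℝ :=
  χ N k * ε (k⁻¹ * γ) (k⁻¹ * γ')

/-- the cut coefficient -/
def aN (χ : ℕ → Γ → ℝ) (ε : Γ → Γ → ℝ) (γ : Γ) (N : ℕ) (k : Γ) : ℝ :=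
  χ N k * ε (k⁻¹ * γ) 1

theorem cut_le (hχ : ∀ N k, 0 ≤ χ N k ∧ χ N k ≤ 1) {x : ℝ} (hx : |x| ≤ 1) (N : ℕ) (k : Γ) :
    |χ N k * x| ≤ 1 := by
  rw [abs_mul, abs_of_nonneg (hχ N k).1]
  exact mul_le_one₀ (hχ N k).2 (abs_nonneg _) hx

theorem eN_le (hε : Psd ε) (hε1 : ∀ x, ε x x ≤ 1) (hχ : ∀ N k, 0 ≤ χ N k ∧ χ N k ≤ 1) (γ γ' : Γ)
    (N : ℕ) (k : Γ) : |eN χ ε γ γ' N k| ≤ 1 := cut_le hχ (hε.abs_le hε1 _ _) N k

theorem aN_le (hε : Psd ε) (hε1 : ∀ x, ε x x ≤ 1) (hχ : ∀ N k, 0 ≤ χ N k ∧ χ N k ≤ 1) (γ : Γ)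
    (N : ℕ) (k : Γ) : |aN χ ε γ N k| ≤ 1 := cut_le hχ (hε.abs_le hε1 _ _) N k

/-- positivity at a finite level -/
theorem psd_N (h : Fn mp) (hR : Rep R) (hε : Psd ε) (hε1 : ∀ x, ε x x ≤ 1)
    (hχ : ∀ N k, 0 ≤ χ N k ∧ χ N k ≤ 1) (N : ℕ) (s : Finset Γ) (ξ : Γ → K) (ζ : K) :
    0 ≤ ‖ζ‖ ^ 2 + 2 * (∑ γ ∈ s, ⟪R (z N) ζ, mp (aN χ ε γ N) (R (z N) (ξ γ))⟫_ℂ).re +
      (∑ γ ∈ s, ∑ γ' ∈ s, ⟪R (z N) (ξ γ'), mp (eN χ ε γ' γ N) (R (z N) (ξ γ))⟫_ℂ).re := by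
  classical
  obtain ⟨P, hP⟩ : ∃ P : Γ → Option s → Γ, P = fun k i => i.elim 1 fun γ => k⁻¹ * γ.1 := ⟨_, rfl⟩
  obtain ⟨e, he⟩ : ∃ e : Option s → Option s → Γ → ℝ,
      e = fun i j k => χ N k * ε (P k i) (P k j) := ⟨_, rfl⟩
  obtain ⟨η, hη⟩ : ∃ η : Option s → K,
      η = fun i => i.elim (R (z N) ζ) fun γ => R (z N) (ξ γ.1) := ⟨_, rfl⟩
  have hb : ∀ i j k, |e i j k| ≤ 1 := fun i j k => by
    rw [he]; exact cut_le hχ (hε.abs_le hε1 _ _) N k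
  have h1 := fn_psd h (e := e) (C := 1) (fun k => by
    rw [he]; exact hε.mat (P k) (hχ N k).1) (fun i k => (le_abs_self _).trans (hb i i k)) η
  have n0 : η none = R (z N) ζ := by rw [hη]; rfl
  have n1 : ∀ γ : s, η (some γ) = R (z N) (ξ γ.1) := fun γ => by rw [hη]; rfl
  have e1 : ∀ γ : s, e none (some γ) = aN χ ε γ.1 N := fun γ => by
    rw [he]; funext k; simp only [hP, aN, Option.elim]; rw [hε.symm]
  have e2 : ∀ γ : s, e (some γ) none = aN χ ε γ.1 N := fun γ => by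
    rw [he]; funext k; simp only [hP, aN, Option.elim]
  have e3 : ∀ γ γ' : s, e (some γ') (some γ) = eN χ ε γ'.1 γ.1 N := fun γ γ' => by
    rw [he]; funext k; simp only [hP, eN, Option.elim]
  simp only [Fintype.sum_option, n0, n1, e1, e2, e3] at h1
  have s1 : ∀ f : Γ → ℂ, ∑ γ : s, f γ.1 = ∑ γ ∈ s, f γ := fun f => Finset.sum_coe_sort s f
  have a1 : (⟪R (z N) ζ, mp (e none none) (R (z N) ζ)⟫_ℂ).re ≤ ‖ζ‖ ^ 2 := by
    have c1 := h.norm_le zero_le_one (hb none none) (R (z N) ζ)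
    have c2 := hR.norm_le (z N) ζ
    rw [one_mul] at c1
    calc _ ≤ ‖⟪R (z N) ζ, mp (e none none) (R (z N) ζ)⟫_ℂ‖ := Complex.re_le_norm _
      _ ≤ ‖R (z N) ζ‖ * ‖mp (e none none) (R (z N) ζ)‖ := norm_inner_le_norm _ _
      _ ≤ ‖ζ‖ * ‖ζ‖ := mul_le_mul c2 (c1.trans c2) (norm_nonneg _) (norm_nonneg _)
      _ = ‖ζ‖ ^ 2 := (sq _).symm
  have a2 : (∑ γ : s, ⟪R (z N) (ξ γ.1), mp (aN χ ε γ.1 N) (R (z N) ζ)⟫_ℂ).re =
      (∑ γ ∈ s, ⟪R (z N) ζ, mp (aN χ ε γ N) (R (z N) (ξ γ))⟫_ℂ).re := by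
    rw [s1 fun γ => ⟪R (z N) (ξ γ), mp (aN χ ε γ N) (R (z N) ζ)⟫_ℂ, Complex.re_sum, Complex.re_sum]
    refine Finset.sum_congr rfl fun γ _ => ?_
    rw [← h.inner_left (aN_le hε hε1 hχ γ N), ← inner_conj_symm, Complex.conj_re]
  have a3 : (∑ γ : s, ⟪R (z N) ζ, mp (aN χ ε γ.1 N) (R (z N) (ξ γ.1))⟫_ℂ) =
      ∑ γ ∈ s, ⟪R (z N) ζ, mp (aN χ ε γ N) (R (z N) (ξ γ))⟫_ℂ :=
    s1 fun γ => ⟪R (z N) ζ, mp (aN χ ε γ N) (R (z N) (ξ γ))⟫_ℂ
  have a4 : (∑ γ : s, ∑ γ' : s, ⟪R (z N) (ξ γ'.1), mp (eN χ ε γ'.1 γ.1 N) (R (z N) (ξ γ.1))⟫_ℂ) =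
      ∑ γ ∈ s, ∑ γ' ∈ s, ⟪R (z N) (ξ γ'), mp (eN χ ε γ' γ N) (R (z N) (ξ γ))⟫_ℂ := by
    rw [← s1 fun γ => ∑ γ' ∈ s, ⟪R (z N) (ξ γ'), mp (eN χ ε γ' γ N) (R (z N) (ξ γ))⟫_ℂ]
    refine Finset.sum_congr rfl fun γ _ => ?_
    exact s1 fun γ' => ⟪R (z N) (ξ γ'), mp (eN χ ε γ' γ.1 N) (R (z N) (ξ γ.1))⟫_ℂ
  rw [Finset.sum_add_distrib, a3, a4] at h1
  simp only [Complex.add_re] at h1
  rw [a2] at h1
  linarith

/-- positivity of the limit -/
theorem psd_lim [U.NeBot] (h : Fn mp) (hR : Rep R) (hε : Psd ε) (hε1 : ∀ x, ε x x ≤ 1)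
    (hχ : ∀ N k, 0 ≤ χ N k ∧ χ N k ≤ 1) (hE : ∀ γ γ', IsL mp R z U (eN χ ε γ γ') (E γ γ'))
    (hA : ∀ γ, IsL mp R z U (aN χ ε γ) (A γ)) (s : Finset Γ) (ξ : Γ → K) (ζ : K) :
    0 ≤ ‖ζ‖ ^ 2 + 2 * (∑ γ ∈ s, ⟪ζ, A γ (ξ γ)⟫_ℂ).re +
      (∑ γ ∈ s, ∑ γ' ∈ s, ⟪ξ γ', E γ' γ (ξ γ)⟫_ℂ).re := by
  have h1 := tendsto_finset_sum s fun γ _ => (hA γ).coef hR ζ (ξ γ)
  have h2 := tendsto_finset_sum s fun γ _ => tendsto_finset_sum s fun γ' _ =>
    (hE γ' γ).coef hR (ξ γ') (ξ γ)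
  have h3 := (((Complex.continuous_re.tendsto _).comp h1).const_mul 2).const_add (‖ζ‖ ^ 2)
  have h4 := h3.add ((Complex.continuous_re.tendsto _).comp h2)
  exact ge_of_tendsto' h4 fun N => psd_N h hR hε hε1 hχ N s ξ ζ

/-- covariance -/
theorem cov_E [U.NeBot] (hL : Leg mp R lam W) (h : Fn mp) (hR : Rep R) (hε : Psd ε)
    (hε1 : ∀ x, ε x x ≤ 1) (hχ : ∀ N k, 0 ≤ χ N k ∧ χ N k ≤ 1)
    (hχs : ∀ s u : Γ, ∀ δ : ℝ, 0 < δ → ∀ᶠ N in U, ∀ k, |χ N (s * k * u) - χ N k| ≤ δ)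
    (hE : ∀ γ γ', IsL mp R z U (eN χ ε γ γ') (E γ γ')) (s γ γ' : Γ) :
    lam s * E γ γ' = E (s * γ) (s * γ') * lam s := by
  have h1 := (hE γ γ').lamc hL h s (eN_le hε hε1 hχ γ γ')
  have h2 := IsL.pert h hR (F' := eN χ ε (s * γ) (s * γ')) (fun N g => eN_le hε hε1 hχ γ γ' N _)
    (eN_le hε hε1 hχ (s * γ) (s * γ')) (fun δ hδ => ?_) h1
  · have h3 := h2.uniq (hE (s * γ) (s * γ'))
    rw [← h3, mul_assoc, ← hL.lmul, inv_mul_cancel, hL.lone, mul_one]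
  · filter_upwards [hχs s⁻¹ 1 δ hδ] with N hN k
    have k1 := hN k
    rw [mul_one] at k1
    simp only [eN]
    have e1 : (s⁻¹ * k)⁻¹ * γ = k⁻¹ * (s * γ) := by group
    have e2 : (s⁻¹ * k)⁻¹ * γ' = k⁻¹ * (s * γ') := by group
    rw [e1, e2, ← sub_mul, abs_mul, abs_sub_comm]
    have k2 := hε.abs_le hε1 (k⁻¹ * (s * γ)) (k⁻¹ * (s * γ'))
    calc _ ≤ δ * 1 := mul_le_mul k1 k2 (abs_nonneg _) hδ.le
      _ = δ := mul_one _

theorem cov_A [U.NeBot] (hL : Leg mp R lam W) (h : Fn mp) (hR : Rep R) (hε : Psd ε)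
    (hε1 : ∀ x, ε x x ≤ 1) (hχ : ∀ N k, 0 ≤ χ N k ∧ χ N k ≤ 1)
    (hχs : ∀ s u : Γ, ∀ δ : ℝ, 0 < δ → ∀ᶠ N in U, ∀ k, |χ N (s * k * u) - χ N k| ≤ δ)
    (hA : ∀ γ, IsL mp R z U (aN χ ε γ) (A γ)) (s γ : Γ) :
    lam s * A γ = A (s * γ) * lam s := by
  have h1 := (hA γ).lamc hL h s (aN_le hε hε1 hχ γ)
  have h2 := IsL.pert h hR (F' := aN χ ε (s * γ)) (fun N g => aN_le hε hε1 hχ γ N _)
    (aN_le hε hε1 hχ (s * γ)) (fun δ hδ => ?_) h1
  · have h3 := h2.uniq (hA (s * γ))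
    rw [← h3, mul_assoc, ← hL.lmul, inv_mul_cancel, hL.lone, mul_one]
  · filter_upwards [hχs s⁻¹ 1 δ hδ] with N hN k
    have k1 := hN k
    rw [mul_one] at k1
    simp only [aN]
    have e1 : (s⁻¹ * k)⁻¹ * γ = k⁻¹ * (s * γ) := by group
    rw [e1, ← sub_mul, abs_mul, abs_sub_comm]
    have k2 := hε.abs_le hε1 (k⁻¹ * (s * γ)) 1
    calc _ ≤ δ * 1 := mul_le_mul k1 k2 (abs_nonneg _) hδ.le
      _ = δ := mul_one _

/-- slow variation on the right, from (RI) -/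
theorem eN_right (hε : Psd ε) (hε1 : ∀ x, ε x x ≤ 1) (hχ : ∀ N k, 0 ≤ χ N k ∧ χ N k ≤ 1)
    (hχs : ∀ s u : Γ, ∀ δ : ℝ, 0 < δ → ∀ᶠ N in U, ∀ k, |χ N (s * k * u) - χ N k| ≤ δ)
    (hRI : ∀ f γ γ' : Γ, ∀ δ : ℝ, 0 < δ → ∀ᶠ N in U, ∀ k, χ N k ≠ 0 →
      |ε (f⁻¹ * k⁻¹ * γ) (f⁻¹ * k⁻¹ * γ') - ε (k⁻¹ * γ) (k⁻¹ * γ')| ≤ δ) (γ γ' u : Γ) {δ : ℝ}
    (hδ : 0 < δ) : ∀ᶠ N in U, ∀ k, |eN χ ε γ γ' N (k * u) - eN χ ε γ γ' N k| ≤ δ := by
  filter_upwards [hχs 1 u (δ / 2) (by positivity), hRI u γ γ' (δ / 2) (by positivity)] with N h1 h2 k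
  have k1 := h1 k
  rw [one_mul] at k1
  have e1 : (k * u)⁻¹ * γ = u⁻¹ * k⁻¹ * γ := by group
  have e2 : (k * u)⁻¹ * γ' = u⁻¹ * k⁻¹ * γ' := by group
  simp only [eN]
  rw [e1, e2]
  obtain ⟨a, ha⟩ : ∃ a, a = ε (u⁻¹ * k⁻¹ * γ) (u⁻¹ * k⁻¹ * γ') := ⟨_, rfl⟩
  obtain ⟨b, hb⟩ : ∃ b, b = ε (k⁻¹ * γ) (k⁻¹ * γ') := ⟨_, rfl⟩
  have k2 : |a| ≤ 1 := by rw [ha]; exact hε.abs_le hε1 _ _
  have k3 : χ N k * |a - b| ≤ δ / 2 := by
    by_cases h0 : χ N k = 0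
    · rw [h0, zero_mul]; positivity
    · have := h2 k h0
      rw [← ha, ← hb] at this
      calc _ ≤ 1 * |a - b| := mul_le_mul_of_nonneg_right (hχ N k).2 (abs_nonneg _)
        _ ≤ _ := by rw [one_mul]; exact this
  rw [← ha, ← hb]
  have e3 : χ N (k * u) * a - χ N k * b = (χ N (k * u) - χ N k) * a + χ N k * (a - b) := by ring
  rw [e3]
  refine (abs_add_le _ _).trans ?_
  rw [abs_mul, abs_mul, abs_of_nonneg (hχ N k).1]
  have k4 : |χ N (k * u) - χ N k| * |a| ≤ δ / 2 * 1 :=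
    mul_le_mul k1 k2 (abs_nonneg _) (by positivity)
  linarith

end ker

/-! ### The theorem -/

/-- The hypotheses of helper729's `Krn.krn_lim` (without the one on scalars). -/
structure KD {Γ K S : Type} [Group Γ] [Group S] [TopologicalSpace S] [NormedAddCommGroup K]
    [InnerProductSpace ℂ K] [CompleteSpace K] (lam : Γ →* (K →L[ℂ] K)) (Z : Set (K →L[ℂ] K))
    (ρ : S →* (K →L[ℂ] K)) (E : Γ → Γ → (K →L[ℂ] K)) (A : Γ → (K →L[ℂ] K)) : Prop where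
  herm : ∀ γ γ', adjoint (E γ γ') = E γ' γ
  psd : ∀ (s : Finset Γ) (ξ : Γ → K) (ζ : K), 0 ≤ ‖ζ‖ ^ 2 +
      2 * (∑ γ ∈ s, ⟪ζ, A γ (ξ γ)⟫_ℂ).re + (∑ γ ∈ s, ∑ γ' ∈ s, ⟪ξ γ', E γ' γ (ξ γ)⟫_ℂ).re
  ladj : ∀ γ, adjoint (lam γ) = lam γ⁻¹
  covE : ∀ s γ γ', lam s * E γ γ' = E (s * γ) (s * γ') * lam s
  covA : ∀ s γ, lam s * A γ = A (s * γ) * lam s
  Zadj : ∀ z ∈ Z, adjoint z ∈ Z
  ZE : ∀ z ∈ Z, ∀ γ γ', z * E γ γ' = E γ γ' * z
  ZA : ∀ z ∈ Z, ∀ γ, z * A γ = A γ * z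
  radj : ∀ g, adjoint (ρ g) = ρ g⁻¹
  rcont : ∀ ξ, Continuous fun g => ρ g ξ
  rE : ∀ g γ γ', ρ g * E γ γ' = E γ γ' * ρ g
  rZ : ∀ g, ∀ z ∈ Z, ρ g * z * ρ g⁻¹ ∈ Z
  rlam : ∀ g γ, ρ g * lam γ = lam γ * ρ g

section main

variable {Γ D K S : Type} [Group Γ] [Group D] [TopologicalSpace D] [Group S] [TopologicalSpace S]
  [NormedAddCommGroup K] [InnerProductSpace ℂ K] [CompleteSpace K] {π : D →* (K →L[ℂ] K)}
  {lam : Γ →* (K →L[ℂ] K)} {W : Set (K →L[ℂ] K)} {Ω : K} {mp : (Γ → ℝ) → (K →L[ℂ] K)}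
  {Bd Bf : Set K} {χ : ℕ → Γ → ℝ} {ε : Γ → Γ → ℝ}

/-- the coefficients and the operators of the contracted group -/
def ZN (W : Set (K →L[ℂ] K)) (π : D →* (K →L[ℂ] K)) (Nb : Set D) : Set (K →L[ℂ] K) :=
  W ∪ {T | ∃ n, (n ∈ Nb ∨ n⁻¹ ∈ Nb) ∧ T = π n}

/-- **[HMK], operator part.** -/
theorem exists_kd (hP : Pic π lam W Ω) (hf : Fn mp)
    (hcov : ∀ γ (F : Γ → ℝ), (∀ g, |F g| ≤ 1) → lam γ * mp F * lam γ⁻¹ = mp (fun g => F (γ⁻¹ * g)))
    (hWm : ∀ w ∈ W, ∀ F : Γ → ℝ, (∀ g, |F g| ≤ 1) → w * mp F = mp F * w)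
    (hd : Dense ((Submodule.span ℂ Bd : Submodule ℂ K) : Set K)) (hn : ∀ ξ ∈ Bd, ‖ξ‖ ≤ 1)
    (hm : ∀ v, ∀ ξ ∈ Bd, π v ξ ∈ Bd) (hsl : Slow mp (fun g => π g) Bd)
    (hL : Loc2 mp (fun g => π g) Bd Bf) (θ : S →* D) (hθ : Continuous θ) (z : ℕ → D)
    (hz : ∀ N s, θ s * z N = z N * θ s) (Nb : Set D) (U : Ultrafilter ℕ)
    (hNb : ∀ n ∈ Nb, Tendsto (fun N => z N * n * (z N)⁻¹) U (𝓝 1))
    (hNS : ∀ s, ∀ n ∈ Nb, θ s * n * (θ s)⁻¹ ∈ Nb)
    (hχ : ∀ N k, 0 ≤ χ N k ∧ χ N k ≤ 1)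
    (hχs : ∀ s u : Γ, ∀ δ : ℝ, 0 < δ → ∀ᶠ N in (U : Filter ℕ), ∀ k,
      |χ N (s * k * u) - χ N k| ≤ δ)
    (hε : Psd ε) (hε1 : ∀ x, ε x x ≤ 1)
    (hRI : ∀ f γ γ' : Γ, ∀ δ : ℝ, 0 < δ → ∀ᶠ N in (U : Filter ℕ), ∀ k, χ N k ≠ 0 →
      |ε (f⁻¹ * k⁻¹ * γ) (f⁻¹ * k⁻¹ * γ') - ε (k⁻¹ * γ) (k⁻¹ * γ')| ≤ δ) :
    ∃ (E : Γ → Γ → (K →L[ℂ] K)) (A : Γ → (K →L[ℂ] K)),
      KD lam (ZN W π Nb) (π.comp θ) E A ∧
      ∀ h, Tendsto (fun N => (⟪π (z N * θ h) Ω,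
        mp (fun k => χ N k * ε k⁻¹ 1) (π (z N * θ h) Ω)⟫_ℂ).re) U
        (𝓝 (⟪(π.comp θ) h Ω, A 1 ((π.comp θ) h Ω)⟫_ℂ).re) := by
  have hR : Rep (fun g => π g) := ⟨map_mul π, hP.adjP⟩
  have hLg : Leg mp (fun g => π g) (fun γ => lam γ) W :=
    ⟨map_one π, map_mul lam, map_one lam, hP.comm, hcov, hP.WP, hWm⟩
  choose E hE using fun γ γ' => exists_isL hf hR U z (eN_le hε hε1 hχ γ γ')
  choose A hA using fun γ => exists_isL hf hR U z (aN_le hε hε1 hχ γ)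
  have hEN : ∀ n ∈ Nb, ∀ γ γ', π n * E γ γ' = E γ γ' * π n := fun n hn' γ γ' =>
    ((hE γ γ').slow hf hR hd hm hsl (eN_le hε hε1 hχ γ γ') (hNb n hn')).symm
  have hAN : ∀ n ∈ Nb, ∀ γ, π n * A γ = A γ * π n := fun n hn' γ =>
    ((hA γ).slow hf hR hd hm hsl (aN_le hε hε1 hχ γ) (hNb n hn')).symm
  have hinv : ∀ (n : D) (T : K →L[ℂ] K), π n * T = T * π n → π n⁻¹ * T = T * π n⁻¹ := by
    intro n T hT
    have e1 : π n⁻¹ * π n = 1 := by rw [← map_mul, inv_mul_cancel, map_one]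
    have e2 : π n * π n⁻¹ = 1 := by rw [← map_mul, mul_inv_cancel, map_one]
    calc π n⁻¹ * T = π n⁻¹ * T * (π n * π n⁻¹) := by rw [e2, mul_one]
      _ = π n⁻¹ * (T * π n) * π n⁻¹ := by simp only [mul_assoc]
      _ = π n⁻¹ * (π n * T) * π n⁻¹ := by rw [hT]
      _ = (π n⁻¹ * π n) * T * π n⁻¹ := by simp only [mul_assoc]
      _ = _ := by rw [e1, one_mul]
  refine ⟨E, A, ⟨fun γ γ' => ?_, psd_lim hf hR hε hε1 hχ hE hA, hP.adjL,
    fun s γ γ' => cov_E hLg hf hR hε hε1 hχ hχs hE s γ γ',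
    fun s γ => cov_A hLg hf hR hε hε1 hχ hχs hA s γ, ?_, ?_, ?_, fun g => ?_,
    fun ξ => (hP.contP ξ).comp hθ, fun g γ γ' => ?_, fun g => ?_,
    fun g γ => hP.comm (θ g) γ⟩, fun h => ?_⟩
  · rw [(hE γ γ').adj hf hR (eN_le hε hε1 hχ γ γ')]
    refine (hE γ γ').uniq ?_
    have e : eN χ ε γ γ' = eN χ ε γ' γ := by
      funext N k
      simp only [eN]
      rw [hε.symm]
    rw [e]
    exact hE γ' γ
  · rintro w (hw | ⟨n, hn', rfl⟩)
    · exact Or.inl (hP.Wadj w hw)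
    · refine Or.inr ⟨n⁻¹, ?_, hP.adjP n⟩
      rw [inv_inv]
      exact hn'.symm
  · rintro w (hw | ⟨n, hn' | hn', rfl⟩) γ γ'
    · exact (hE γ γ').commW hLg hf hR (eN_le hε hε1 hχ γ γ') hw
    · exact hEN n hn' γ γ'
    · have := hinv n⁻¹ _ (hEN _ hn' γ γ')
      rwa [inv_inv] at this
  · rintro w (hw | ⟨n, hn' | hn', rfl⟩) γ
    · exact (hA γ).commW hLg hf hR (aN_le hε hε1 hχ γ) hw
    · exact hAN n hn' γ
    · have := hinv n⁻¹ _ (hAN _ hn' γ)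
      rwa [inv_inv] at this
  · change adjoint (π (θ g)) = π (θ g⁻¹)
    rw [hP.adjP, map_inv θ]
  · exact (hE γ γ').loc hf hR (fun ξ hξ => hn ξ (hL.sub hξ)) hL (eN_le hε hε1 hχ γ γ')
      (fun N => hz N g) (fun u δ hδ => eN_right hε hε1 hχ hχs hRI γ γ' u hδ)
  · rintro w (hw | ⟨n, hn', rfl⟩)
    · left
      have := hP.WP w hw (θ g)
      rwa [← map_inv θ] at this
    · right
      refine ⟨θ g * n * (θ g)⁻¹, ?_, ?_⟩
      · rcases hn' with hn' | hn'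
        · exact Or.inl (hNS g n hn')
        · right
          have e : (θ g * n * (θ g)⁻¹)⁻¹ = θ g * n⁻¹ * (θ g)⁻¹ := by group
          rw [e]
          exact hNS g _ hn'
      · rw [map_mul, map_mul]
        change π (θ g) * π n * π (θ g⁻¹) = _
        rw [map_inv θ]
  · have h1 := (Complex.continuous_re.tendsto _).comp ((hA 1).coef hR (π (θ h) Ω) (π (θ h) Ω))
    refine h1.congr fun N => ?_
    have e1 : π (z N * θ h) Ω = π (z N) (π (θ h) Ω) := by rw [map_mul]; rfl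
    have e2 : (fun k => χ N k * ε k⁻¹ 1) = aN χ ε 1 N := by
      funext k; simp only [aN, mul_one]
    rw [e1, e2]
    rfl

end main

end Vale.Agent.P092.H618.HMK
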