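import Vale.Agent.P092.H618.HMK
import Vale.Agent.P092.H729.Krn

/-!
P092 (helper618), Team N, block [N-GAPB], part (1): **[HMK]**. For a positive semidefinite kernel
`ε` on `Γ` with (RI) the numbers `lim_U <m(χ_N(k) ε(k⁻¹, 1)) π(z_N h)Ω, π(z_N h)Ω>` converge as
`h → ∞` in `S`.
-/

set_option linter.all false

open scoped InnerProductSpace
open Filter Topology ContinuousLinearMap

namespace Vale.Agent.P092.H618.HMK

open Vale.Agent.P092.H859.CL (Fn Rep Slow Leg)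
open Vale.Agent.P092.H43 (Loc2)
open Vale.Agent.P092.RC (Pic Moore Cm)

/-- The data of the source: picture, multiplication operators, the group `S` commuting with the
sequence `z`, the contracted set `Nb` and the cut-offs `χ`. -/
structure Inp {Γ D K S : Type} [Group Γ] [Group D] [TopologicalSpace D] [Group S]
    [TopologicalSpace S] [NormedAddCommGroup K] [InnerProductSpace ℂ K] [CompleteSpace K]
    (π : D →* (K →L[ℂ] K)) (lam : Γ →* (K →L[ℂ] K)) (W : Set (K →L[ℂ] K)) (Ω : K)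
    (mp : (Γ → ℝ) → (K →L[ℂ] K)) (Bd Bf : Set K) (θ : S →* D) (z : ℕ → D) (Nb : Set D)
    (U : Ultrafilter ℕ) (χ : ℕ → Γ → ℝ) : Prop where
  pic : Pic π lam W Ω
  fn : Fn mp
  cov : ∀ γ (F : Γ → ℝ), (∀ g, |F g| ≤ 1) → lam γ * mp F * lam γ⁻¹ = mp (fun g => F (γ⁻¹ * g))
  Wm : ∀ w ∈ W, ∀ F : Γ → ℝ, (∀ g, |F g| ≤ 1) → w * mp F = mp F * w
  dense : Dense ((Submodule.span ℂ Bd : Submodule ℂ K) : Set K)
  norm : ∀ ξ ∈ Bd, ‖ξ‖ ≤ 1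
  map : ∀ v, ∀ ξ ∈ Bd, π v ξ ∈ Bd
  slow : Slow mp (fun g => π g) Bd
  loc : Loc2 mp (fun g => π g) Bd Bf
  cont : Continuous θ
  cz : ∀ N s, θ s * z N = z N * θ s
  con : ∀ n ∈ Nb, Tendsto (fun N => z N * n * (z N)⁻¹) U (𝓝 1)
  nrm : ∀ s, ∀ n ∈ Nb, θ s * n * (θ s)⁻¹ ∈ Nb
  χ01 : ∀ N k, 0 ≤ χ N k ∧ χ N k ≤ 1
  χs : ∀ s u : Γ, ∀ δ : ℝ, 0 < δ → ∀ᶠ N in (U : Filter ℕ), ∀ k, |χ N (s * k * u) - χ N k| ≤ δ

/-- The kernels: psd, at most one on the diagonal, (RI). -/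
structure Ker {Γ : Type} [Group Γ] (U : Ultrafilter ℕ) (χ : ℕ → Γ → ℝ) (ε : Γ → Γ → ℝ) :
    Prop where
  psd : Psd ε
  le : ∀ x, ε x x ≤ 1
  ri : ∀ f γ γ' : Γ, ∀ δ : ℝ, 0 < δ → ∀ᶠ N in (U : Filter ℕ), ∀ k, χ N k ≠ 0 →
      |ε (f⁻¹ * k⁻¹ * γ) (f⁻¹ * k⁻¹ * γ') - ε (k⁻¹ * γ) (k⁻¹ * γ')| ≤ δ

section main

variable {Γ D K S : Type} [Group Γ] [Group D] [TopologicalSpace D] [Group S] [TopologicalSpace S]
  [NormedAddCommGroup K] [InnerProductSpace ℂ K] [CompleteSpace K] {π : D →* (K →L[ℂ] K)}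
  {lam : Γ →* (K →L[ℂ] K)} {W : Set (K →L[ℂ] K)} {Ω : K} {mp : (Γ → ℝ) → (K →L[ℂ] K)}
  {Bd Bf : Set K} {θ : S →* D} {z : ℕ → D} {Nb : Set D} {U : Ultrafilter ℕ}
  {χ : ℕ → Γ → ℝ} {ε : Γ → Γ → ℝ}

/-- (sc'): the commutant of `lam`, `W` and the contracted group commutes with `S`. -/
def Sc (π : D →* (K →L[ℂ] K)) (lam : Γ →* (K →L[ℂ] K)) (W : Set (K →L[ℂ] K)) (θ : S →* D)
    (Nb : Set D) : Prop :=
  ∀ T : K →L[ℂ] K, (∀ γ, T * lam γ = lam γ * T) → (∀ z ∈ ZN W π Nb, T * z = z * T) →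
    ∀ g, T * (π.comp θ) g = (π.comp θ) g * T

/-- one simple factor -/
theorem sc_of (hP : Pic π lam W Ω) (hM : Moore Nb) : Sc π lam W θ Nb := by
  intro T h1 h2 g
  obtain ⟨c, rfl⟩ := hP.erg Nb hM T (fun w hw => h2 w (Or.inl hw)) h1
    (fun n hn => h2 _ (Or.inr ⟨n, Or.inl hn, rfl⟩))
  rw [smul_mul_assoc, mul_smul_comm, one_mul, mul_one]

/-- **[HMK]**, general form. -/
theorem Inp.lim [IsTopologicalGroup S] (h : Inp π lam W Ω mp Bd Bf θ z Nb U χ)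
    (hS : H933.HoweMoore S) (hsc : Sc π lam W θ Nb) (hk : Ker U χ ε) :
    ∃ m : S → ℝ, (∀ s, Tendsto (fun N => (⟪π (z N * θ s) Ω,
      mp (fun k => χ N k * ε k⁻¹ 1) (π (z N * θ s) Ω)⟫_ℂ).re) U (𝓝 (m s))) ∧
      ∃ c : ℝ, Tendsto m (cocompact S) (𝓝 c) := by
  obtain ⟨E, A, hK, hc⟩ := exists_kd h.pic h.fn h.cov h.Wm h.dense h.norm h.map h.slow h.loc θ
    h.cont z h.cz Nb U h.con h.nrm h.χ01 h.χs hk.psd hk.le hk.ri
  obtain ⟨c, h1⟩ := H729.Krn.krn_lim' hS E A hK.herm hK.psd lam hK.ladj hK.covE hK.covA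
    (ZN W π Nb) hK.Zadj hK.ZE hK.ZA (π.comp θ) hK.radj hK.rcont hK.rE hK.rZ hK.rlam hsc Ω
  exact ⟨_, hc, c.re, (Complex.continuous_re.tendsto _).comp h1⟩

/-- **[HMK]** for finite linear combinations `F k = ∑ c_i ε_i(k⁻¹, 1)`. -/
theorem Inp.lim_sum [IsTopologicalGroup S] (h : Inp π lam W Ω mp Bd Bf θ z Nb U χ)
    (hS : H933.HoweMoore S) (hsc : Sc π lam W θ Nb) {ι : Type} (I : Finset ι) (c : ι → ℝ)
    {ε : ι → Γ → Γ → ℝ} (hk : ∀ i, Ker U χ (ε i)) {F : Γ → ℝ}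
    (hF : ∀ k, F k = ∑ i ∈ I, c i * ε i k⁻¹ 1) :
    ∃ m : S → ℝ, (∀ s, Tendsto (fun N => (⟪π (z N * θ s) Ω,
      mp (fun k => χ N k * F k) (π (z N * θ s) Ω)⟫_ℂ).re) U (𝓝 (m s))) ∧
      ∃ a : ℝ, Tendsto m (cocompact S) (𝓝 a) := by
  choose m hm1 a ha using fun i => h.lim hS hsc (hk i)
  refine ⟨fun s => ∑ i ∈ I, c i * m i s, fun s => ?_, ∑ i ∈ I, c i * a i,
    tendsto_finset_sum _ fun i _ => (ha i).const_mul (c i)⟩
  have h1 := tendsto_finset_sum I fun i _ => (hm1 i s).const_mul (c i)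
  refine h1.congr fun N => ?_
  have hb : ∀ i k, |χ N k * ε i k⁻¹ 1| ≤ 1 := fun i k =>
    cut_le h.χ01 ((hk i).psd.abs_le (hk i).le _ _) N k
  have e1 : (fun k => χ N k * F k) = fun k => ∑ i ∈ I, c i * (χ N k * ε i k⁻¹ 1) := by
    funext k
    rw [hF, Finset.mul_sum]
    exact Finset.sum_congr rfl fun i _ => by ring
  have e2 : ∀ i k, |c i * (χ N k * ε i k⁻¹ 1)| ≤ |c i| * 1 := fun i k => by
    rw [abs_mul]
    exact mul_le_mul_of_nonneg_left (hb i k) (abs_nonneg _)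
  rw [e1, h.fn.sum I e2, ContinuousLinearMap.sum_apply, inner_sum, Complex.re_sum]
  refine Finset.sum_congr rfl fun i _ => ?_
  rw [h.fn.smul (c i) (hb i), smul_apply, inner_smul_right, Complex.re_ofReal_mul]

/-- **[HMK]**, one simple factor (`Nb` Moore). -/
theorem Inp.hmk [IsTopologicalGroup S] (h : Inp π lam W Ω mp Bd Bf θ z Nb U χ)
    (hS : H933.HoweMoore S) (hM : Moore Nb) {ι : Type} (I : Finset ι) (c : ι → ℝ)
    {ε : ι → Γ → Γ → ℝ} (hk : ∀ i, Ker U χ (ε i)) {F : Γ → ℝ}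
    (hF : ∀ k, F k = ∑ i ∈ I, c i * ε i k⁻¹ 1) :
    ∃ m : S → ℝ, (∀ s, Tendsto (fun N => (⟪π (z N * θ s) Ω,
      mp (fun k => χ N k * F k) (π (z N * θ s) Ω)⟫_ℂ).re) U (𝓝 (m s))) ∧
      ∃ a : ℝ, Tendsto m (cocompact S) (𝓝 a) := h.lim_sum hS (sc_of h.pic hM) I c hk hF

end main

end Vale.Agent.P092.H618.HMK
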